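import Vale.Agent.P366Y.A.Defs
import Vale.Agent.P366Y.G.Scf

/-!
# P366Y, block A: conformal laws (rows CF1, CF3)
-/

open Vale.Agent.P366.Stmt Vale.Agent.P366Z

noncomputable section

namespace Vale.Agent.P366Y.A

namespace Cf1H

variable {n : ℕ} {g K : Field n} {U F : E n → ℝ} {x : E n}

theorem two (h : 0 < U x) : U x ^ (-(2 * bb n)) = U x ^ (-bb n) * U x ^ (-bb n) := by
  rw [← Real.rpow_add h]
  congr 1
  ring

theorem one (h : 0 < U x) : U x ^ (-bb n) * U x ^ bb n = 1 := by
  rw [← Real.rpow_add h, neg_add_cancel, Real.rpow_zero]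

theorem tr_cf (hg : Met g) (h : 0 < U x) (T : Field n) :
    tr (cf U g) T x = U x ^ (-(2 * bb n)) * tr g T x := by
  simp only [tr, hg.up_cf h, Finset.mul_sum, mul_assoc]

theorem tr_ck : tr g (ck U K) x = U x ^ bb n * tr g K x := by
  simp only [tr, ck, Finset.mul_sum, mul_left_comm]

theorem nrm_eq (i : Fin n) : nrm g F i x = gr g F i x / gn g F x := rfl

theorem trS_cf (hg : Met g) (h : 0 < U x) (T : Field n) :
    trS (cf U g) T F x = U x ^ (-(2 * bb n)) * trS g T F x := by
  have h1 : ∀ i, nrm (cf U g) F i x = U x ^ (-bb n) * nrm g F i x := fun i => by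
    rw [nrm_eq, nrm_eq, hg.gr_cf h, hg.gn_cf h, two h, mul_assoc,
      mul_div_mul_left _ _ (Real.rpow_pos_of_pos h _).ne', mul_div_assoc]
  simp only [trS, tr_cf hg h, h1, mul_sub, Finset.mul_sum]
  congr 1
  refine Finset.sum_congr rfl fun i _ => Finset.sum_congr rfl fun j _ => ?_
  rw [two h]
  ring

theorem trS_ck : trS g (ck U K) F x = U x ^ bb n * trS g K F x := by
  simp only [trS, tr_ck, ck, mul_sub, Finset.mul_sum, mul_assoc]

theorem trS_sub (hg : Met g) (h : gn g F x ≠ 0) {T T' : Field n} {s : E n → ℝ}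
    (e : ∀ i j, T' x i j = T x i j -
      (pd i F x * pd j s x + pd j F x * pd i s x - g x i j * ip g s F x)) :
    trS g T' F x = trS g T F x + (n - 1) * ip g s F x := by
  have h2 : ∑ i, ∑ j, up g i j x * g x i j = n := by
    have h : ∀ i, ∑ j, up g i j x * g x i j = 1 := fun i => by
      simp only [hg.sy x i, hg.up_mul, if_true]
    simp [h]
  have h3 : ∑ i, ∑ j, up g i j x * (pd j F x * pd i s x) = ip g s F x :=
    Finset.sum_congr rfl fun i _ => Finset.sum_congr rfl fun j _ => by ring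
  have h4 : ∑ i, ∑ j, up g i j x * (pd i F x * pd j s x) = ip g s F x := by
    rw [Finset.sum_comm, ← h3]
    simp only [hg.up_sy _ _ x]
  have h5 : tr g T' x = tr g T x - (2 - n) * ip g s F x := by
    simp only [tr, e, mul_sub, mul_add, Finset.sum_sub_distrib, Finset.sum_add_distrib, h3, h4,
      ← mul_assoc _ (g x _ _), ← Finset.sum_mul, h2]
    ring
  have h6 : ∑ i, pd i F x * gr g F i x = gn g F x ^ 2 := by rw [← ip_eq_gr, hg.gn_sq]
  have h7 : ∑ i, ∑ j, g x i j * gr g F j x * gr g F i x = gn g F x ^ 2 := by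
    rw [← h6]
    exact Finset.sum_congr rfl fun i _ => by
      rw [← Finset.sum_mul]
      exact congrArg (· * _) (hg.g_up_mul x i _)
  have h8 : ∑ i, ∑ j, T' x i j * nrm g F i x * nrm g F j x =
      ∑ i, ∑ j, T x i j * nrm g F i x * nrm g F j x -
        ((∑ i, pd i F x * gr g F i x) * (∑ j, pd j s x * gr g F j x) +
          (∑ i, pd i s x * gr g F i x) * (∑ j, pd j F x * gr g F j x) -
          (∑ i, ∑ j, g x i j * gr g F j x * gr g F i x) * ip g s F x) / gn g F x ^ 2 := by
    rw [Finset.sum_mul_sum, Finset.sum_mul_sum]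
    simp only [Finset.sum_mul, Finset.sum_div, sub_div, add_div]
    simp only [← Finset.sum_add_distrib, ← Finset.sum_sub_distrib]
    refine Finset.sum_congr rfl fun i _ => Finset.sum_congr rfl fun j _ => ?_
    rw [e, nrm_eq, nrm_eq]
    ring
  rw [trS, trS, h5, h8, h6, h7, ← ip_eq_gr]
  field_simp
  ring

end Cf1H

open Cf1H in
/-- row CF1 -/
theorem cf1 : CF1 := by
  intro n g K U hn hg hK hU h0
  refine ⟨hg.cf hU h0, ⟨fun i j => ContDiff.mul (hU.rpow h0 _) (hK.sm i j), fun x i j => ?_⟩,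
    fun x => ?_⟩
  · rw [ck, ck, hK.sy]
  have h := h0 x
  have h1 : tr (cf U g) (ck U K) x = U x ^ (-bb n) * tr g K x := by
    rw [tr_cf hg h, tr_ck, two h]
    linear_combination U x ^ (-bb n) * tr g K x * one (n := n) h
  have h2 : normSq (cf U g) (ck U K) x = U x ^ (-(2 * bb n)) * normSq g K x := by
    simp only [normSq, ck, hg.up_cf h, Finset.mul_sum]
    refine Finset.sum_congr rfl fun i _ => Finset.sum_congr rfl fun j _ =>
      Finset.sum_congr rfl fun k _ => Finset.sum_congr rfl fun l _ => ?_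
    rw [two h]
    linear_combination U x ^ (-bb n) * U x ^ (-bb n) * (up g i k x * up g j l x * K x i j * K x k l) *
      (U x ^ (-bb n) * U x ^ bb n + 1) * one (n := n) h
  have h3 : scal (cf U g) x = U x ^ (-(2 * bb n) - 1) * cl g U x := by
    have k := Y.scf n g U (fun _ => 1) x hn hg hU h0 contDiff_const
    simp only [mul_one] at k
    rw [← k, cl, lap_const, mul_zero, zero_add, mul_one]
  refine ⟨h1, h2, hg.gn_cf h, h3, ?_⟩
  rw [mu, mu, h1, h2, h3, cl, Real.rpow_sub_one h.ne', two h]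
  have := h.ne'
  field_simp
  ring

open Cf1H Y.ScfH in
/-- row CF3 -/
theorem cf3 : CF3 := by
  intro n g K U F x hn hg _ hU h0 _ hF
  have h := h0 x
  have h1 := trS_sub (T := hess g F) (T' := hess (cf U g) F) (s := ls U) hg hF fun i j => by
    have k := sum2 (G := g x) (p := fun i => pd i (ls U) x) (X := fun k => gr g (ls U) k x)
      (fun l => pd l F x) i j
    rw [← ip_eq_gr, hg.ip_sy] at k
    simp only [hess, chr_cf hg hU h0, add_mul, Finset.sum_add_distrib, af, mul_comm (aa _ _ _ _ _ _)]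
    rw [k]
    ring
  have h2 : ip g (ls U) F x = bb n / U x * ip g U F x := by
    rw [ip_of_pd (pd_ls hU h0) (v' := F) (t := 1) fun i => (one_mul _).symm, mul_one]
  show trS _ _ F x / gn _ F x + _ = _ * (trS _ _ F x / gn _ F x + _ + _)
  rw [trS_cf hg h, trS_cf hg h, trS_ck, h1, h2, hg.gn_cf h, two h, ← nm1_bb hn]
  have := h.ne'
  have k := one (n := n) h
  have k0 := (Real.rpow_pos_of_pos h (-bb n)).ne'
  generalize U x ^ (-bb n) = A at k k0
  rw [show A * A * (U x ^ bb n * trS g K F x) = A * (A * U x ^ bb n) * trS g K F x by ring, k]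
  field_simp
  ring

end Vale.Agent.P366Y.A
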