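import Vale.Agent.P366Y.A.Defs
import Vale.Agent.P366Y.G.Scf
import Vale.Agent.P366Y.G.Nk2
import Vale.Agent.P366Z.Boch

/-!
# P366Y, block A: the conformal law of the momentum density
-/

open Vale.Agent.P366.Stmt Vale.Agent.P366Z Vale.Agent.P366Z.Boch Vale.Agent.P366Z.Y
open Vale.Agent.P366Z.Y.ScfH

noncomputable section

namespace Vale.Agent.P366Y.A

namespace Cf2H

variable {n : ℕ} {g K : Field n} {U : E n → ℝ} {x : E n}

/-- the inner product of two covectors -/
def qq (g : Field n) (x : E n) (a b : Fin n → ℝ) : ℝ := ∑ i, ∑ j, up g i j x * a i * b j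

theorem tri (hg : Met g) (a b : Fin n → ℝ) {c d : ℝ} (hc : 0 ≤ c) (hd : 0 ≤ d) :
    √(qq g x (fun i => c * (a i + d * b i)) fun i => c * (a i + d * b i)) ≤
      c * (√(qq g x a a) + d * √(qq g x b b)) := by
  have h1 : qq g x (fun i => c * (a i + d * b i)) (fun i => c * (a i + d * b i)) =
      c ^ 2 * (qq g x a a + d * qq g x a b + d * qq g x b a + d ^ 2 * qq g x b b) := by
    simp only [qq, Finset.mul_sum, ← Finset.sum_add_distrib]
    exact Finset.sum_congr rfl fun i _ => Finset.sum_congr rfl fun j _ => by ring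
  have ha : 0 ≤ qq g x a a := hg.up_nonneg x a
  have hb : 0 ≤ qq g x b b := hg.up_nonneg x b
  have h2 : qq g x a b ≤ √(qq g x a a) * √(qq g x b b) :=
    Real.sqrt_mul ha _ ▸ Real.le_sqrt_of_sq_le (hg.up_cs x a b)
  have h3 : qq g x b a ≤ √(qq g x b b) * √(qq g x a a) :=
    Real.sqrt_mul hb _ ▸ Real.le_sqrt_of_sq_le (hg.up_cs x b a)
  refine Real.sqrt_le_iff.2 ⟨by positivity, ?_⟩
  rw [h1, mul_pow]
  refine mul_le_mul_of_nonneg_left ?_ (sq_nonneg c)
  rw [add_sq, mul_pow, Real.sq_sqrt ha, Real.sq_sqrt hb]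
  linarith [mul_le_mul_of_nonneg_left h2 hd, mul_le_mul_of_nonneg_left h3 hd]

theorem app (hg : Met g) (T : Fin n → Fin n → ℝ) (d : Fin n → ℝ) :
    √(qq g x (fun i => ∑ k, T i k * ∑ l, up g k l x * d l) fun i => ∑ k, T i k * ∑ l,
      up g k l x * d l) ≤ √(bil g x T T) * √(qq g x d d) := by
  generalize ht : (fun i => ∑ k, T i k * ∑ l, up g k l x * d l) = t
  have h0 : ∀ S : Fin n → Fin n → ℝ, bil g x S (fun k l => t k * d l) =
      ∑ i, ∑ j, S i j * ((∑ k, up g i k x * t k) * ∑ l, up g j l x * d l) := fun S => by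
    simp only [bil, Finset.sum_mul_sum]
    simp only [Finset.mul_sum]
    exact Finset.sum_congr rfl fun i _ => Finset.sum_congr rfl fun j _ =>
      Finset.sum_congr rfl fun k _ => Finset.sum_congr rfl fun l _ => by ring
  have h1 : ∀ a : Fin n → ℝ, qq g x a a = ∑ i, a i * ∑ k, up g i k x * a k := fun a => by
    simp only [qq, Finset.mul_sum]
    exact Finset.sum_congr rfl fun i _ => Finset.sum_congr rfl fun j _ => by ring
  have h2 : bil g x T (fun k l => t k * d l) = qq g x t t := by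
    rw [h0, h1]
    refine Finset.sum_congr rfl fun i _ => ?_
    rw [← congrFun ht i, Finset.sum_mul]
    exact Finset.sum_congr rfl fun j _ => by ring
  have h3 : bil g x (fun k l => t k * d l) (fun k l => t k * d l) = qq g x t t * qq g x d d := by
    rw [h0, h1, h1, Finset.sum_mul_sum]
    exact Finset.sum_congr rfl fun i _ => Finset.sum_congr rfl fun j _ => by ring
  have h4 := bil_cs hg x T fun k l => t k * d l
  rw [h2, h3] at h4
  have h5 : 0 ≤ qq g x d d := hg.up_nonneg x d
  have h6 : 0 ≤ qq g x t t := hg.up_nonneg x t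
  rw [← Real.sqrt_mul' _ h5]
  rcases h6.eq_or_lt with k | k
  · rw [← k, Real.sqrt_zero]
    exact Real.sqrt_nonneg _
  · exact Real.sqrt_le_sqrt (le_of_mul_le_mul_left (by linarith) k)

theorem alg (hg : Met g) {T : Fin n → Fin n → ℝ} (hT : ∀ i j, T i j = T j i) (p : Fin n → ℝ)
    (j : Fin n) : ∑ i, ∑ k, up g i k x * (p k * T i j -
      ∑ l, (aa (g x) p (fun k => ∑ l, up g k l x * p l) l k i * T l j +
        aa (g x) p (fun k => ∑ l, up g k l x * p l) l k j * T i l)) =
      (n - 1) * ∑ k, T j k * ∑ l, up g k l x * p l - (∑ i, ∑ k, up g i k x * T i k) * p j := by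
  obtain ⟨Y, hY⟩ : ∃ Y : Fin n → ℝ, Y = fun i => ∑ k, T i k * ∑ l, up g k l x * p l := ⟨_, rfl⟩
  have h1 : ∀ i k, ∑ l, (aa (g x) p (fun k => ∑ l, up g k l x * p l) l k i * T l j +
      aa (g x) p (fun k => ∑ l, up g k l x * p l) l k j * T i l) =
      T j k * p i + T j i * p k - g x k i * Y j + (T i k * p j + T i j * p k - g x k j * Y i) :=
    fun i k => by
      rw [hY, ← sum2, ← sum2, ← Finset.sum_add_distrib]
      exact Finset.sum_congr rfl fun l _ => by rw [hT l j]; ring
  have h2 : ∑ i, ∑ k, up g i k x * (T j k * p i) = Y j := by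
    rw [hY, Finset.sum_comm]
    simp only [Finset.mul_sum]
    exact Finset.sum_congr rfl fun i _ => Finset.sum_congr rfl fun k _ => by rw [hg.up_sy]; ring
  have h3 : ∑ i, ∑ k, up g i k x * (T j i * p k) = Y j := by
    simp only [hY, Finset.mul_sum]
    exact Finset.sum_congr rfl fun i _ => Finset.sum_congr rfl fun k _ => by ring
  have h4 : ∑ i, ∑ k, up g i k x * (g x k i * Y j) = n * Y j := by
    simp [← mul_assoc, ← Finset.sum_mul, hg.up_mul]
  have h5 : ∑ i, ∑ k, up g i k x * (g x k j * Y i) = Y j := by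
    simp [← mul_assoc, ← Finset.sum_mul, hg.up_mul]
  have h6 : ∑ i, ∑ k, up g i k x * (T i k * p j) = (∑ i, ∑ k, up g i k x * T i k) * p j := by
    simp only [Finset.sum_mul, mul_assoc]
  rw [← congrFun hY j, show (n - 1) * Y j - (∑ i, ∑ k, up g i k x * T i k) * p j =
    -(Y j + Y j - n * Y j + ((∑ i, ∑ k, up g i k x * T i k) * p j - Y j)) by ring, ← h6, ← h4]
  nth_rewrite 1 [← h2]
  nth_rewrite 1 [← h3]
  nth_rewrite 2 [← h5]
  simp only [h1, ← Finset.sum_add_distrib, ← Finset.sum_sub_distrib, ← Finset.sum_neg_distrib]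
  exact Finset.sum_congr rfl fun i _ => Finset.sum_congr rfl fun k _ => by ring

theorem mom_cf (hg : Met g) (hK : Sy K) (hU : Smooth U) (h0 : ∀ y, 0 < U y) (j : Fin n) :
    mom (cf U g) (ck U K) j x =
      U x ^ (-bb n) * (mom g K j x + (n - 1) * ∑ k, K x j k * gr g (ls U) k x) := by
  have e0 : ∀ y, U y ^ (-(2 * bb n)) * U y ^ bb n = U y ^ (-bb n) := fun y => by
    rw [← Real.rpow_add (h0 y)]
    congr 1
    ring
  have e1 : ∀ y i j, momT (cf U g) (ck U K) y i j = U y ^ bb n * momT g K y i j := fun y i j => by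
    have a1 : tr (cf U g) (ck U K) y = U y ^ (-bb n) * tr g K y := by
      simp only [tr, ck, hg.up_cf (h0 y), Finset.mul_sum, ← e0]
      exact Finset.sum_congr rfl fun i _ => Finset.sum_congr rfl fun k _ => by ring
    have a2 : U y ^ (-bb n) * U y ^ (2 * bb n) = U y ^ bb n := by
      rw [← Real.rpow_add (h0 y)]
      congr 1
      ring
    rw [momT, momT, a1, ck, cf]
    linear_combination -(tr g K y * g y i j) * a2
  have s1 : ∀ i j, Smooth fun y => momT g K y i j := fun i j => ContDiff.sub (hK.sm i j)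
    (ContDiff.mul (ContDiff.sum fun a _ => ContDiff.sum fun b _ =>
      ContDiff.mul (hg.sm_up a b) (hK.sm a b)) (hg.sm i j))
  have e2 : ∀ k i j, pd k (fun y => U y ^ bb n * momT g K y i j) x = U x ^ bb n *
      (pd k (ls U) x * momT g K x i j + pd k (fun y => momT g K y i j) x) := fun k i j => by
    rw [pd_mul ((hU.rpow h0 _).diff x) ((s1 i j).diff x), pd_rpow (hU.diff x) (h0 x).ne',
      pd_ls hU h0, Real.rpow_sub_one (h0 x).ne']
    ring
  have e3 := alg (x := x) hg (T := momT g K x) (fun i j => by rw [momT, momT, hK.sy, hg.sy])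
    (fun i => pd i (ls U) x) j
  have e4 : (n - 1) * ∑ k, momT g K x j k * ∑ l, up g k l x * pd l (ls U) x -
      (∑ i, ∑ k, up g i k x * momT g K x i k) * pd j (ls U) x =
      (n - 1) * ∑ k, K x j k * gr g (ls U) k x := by
    have a1 : ∑ i, ∑ k, up g i k x * (tr g K x * g x i k) = n * tr g K x := by
      have a2 : ∀ i, ∑ k, up g i k x * (tr g K x * g x i k) = tr g K x := fun i => by
        simp [mul_comm (tr g K x), ← mul_assoc, ← Finset.sum_mul, hg.sy x i, hg.up_mul]
      simp [a2]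
    simp only [momT, sub_mul, mul_sub, Finset.sum_sub_distrib, mul_assoc, ← Finset.mul_sum,
      hg.g_up_mul x j fun l => pd l (ls U) x, a1, gr]
    rw [show ∑ i, ∑ k, up g i k x * K x i k = tr g K x from rfl]
    ring
  rw [← e4, ← e3, ← e0]
  simp only [mom, e1, e2, chr_cf hg hU h0, hg.up_cf (h0 x), Finset.mul_sum,
    ← Finset.sum_add_distrib]
  refine Finset.sum_congr rfl fun i _ => Finset.sum_congr rfl fun k _ => ?_
  simp only [af, gr, add_mul, Finset.sum_add_distrib, mul_left_comm _ (U x ^ bb n),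
    ← Finset.mul_sum]
  ring

end Cf2H

open Cf2H in
/-- **CF2** -/
theorem cf2 : CF2 := by
  intro n g K U hn hg hK hU h0 x
  have h1 : (0 : ℝ) ≤ n - 1 := by
    have : (3 : ℝ) ≤ n := by exact_mod_cast hn
    linarith
  have h2 := tri (x := x) hg (fun j => mom g K j x) (fun j => ∑ k, K x j k * gr g (ls U) k x)
    (Real.rpow_nonneg (h0 x).le (-bb n)) h1
  have h3 := app (x := x) hg (K x) fun l => pd l (ls U) x
  have h4 : √(qq g x (fun l => pd l (ls U) x) fun l => pd l (ls U) x) =
      bb n / U x * gn g U x := by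
    have := div_pos (bb_pos hn) (h0 x)
    rw [show qq g x (fun l => pd l (ls U) x) (fun l => pd l (ls U) x) = _ from
      ip_of_pd (pd_ls hU h0) (pd_ls hU h0), Real.sqrt_mul (by positivity), Real.sqrt_mul_self this.le,
      gn]
  rw [Nk2H.cov_cf hg (h0 x), show -(2 * bb n) = -bb n + -bb n by ring, Real.rpow_add (h0 x),
    mul_assoc, covNorm]
  simp only [mom_cf hg hK hU h0]
  refine mul_le_mul_of_nonneg_left (h2.trans (mul_le_mul_of_nonneg_left (add_le_add_right
    ((mul_le_mul_of_nonneg_left h3 h1).trans_eq ?_) _) (Real.rpow_nonneg (h0 x).le _)))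
    (Real.rpow_nonneg (h0 x).le _)
  rw [h4, ← nm1_bb hn, show bil g x (K x) (K x) = normSq g K x from rfl]
  ring

end Vale.Agent.P366Y.A
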