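import Vale.Agent.P366Y.A.Defs
import Vale.Agent.P366Z.St0.Asm1

/-!
# P366Y, block A: rows CVX and VPI
-/

open MeasureTheory Metric Filter Topology Set
open scoped ContDiff ENNReal
open Vale.Agent.P366.Stmt Vale.Agent.P366Z Vale.Agent.P366Z.St0

noncomputable section

namespace Vale.Agent.P366Y.A

namespace CvxH

variable {n : ℕ} {g : Field n} {U : E n → ℝ} {x : E n}

/-- the derivative of the conformal metric, without the factor -/
def dD (g : Field n) (U : E n → ℝ) (x : E n) (m i j : Fin n) : ℝ :=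
  2 * bb n / U x * pd m U x * g x i j + pd m (fun y => g y i j) x

theorem chr_eq (hg : Met g) (hU : Smooth U) (h0 : ∀ y, 0 < U y) (k i j : Fin n) :
    chr (cf U g) k i j x =
      (∑ l, up g k l x * (dD g U x i j l + dD g U x j i l - dD g U x l i j)) / 2 := by
  have h1 : U x ^ (-(2 * bb n)) * U x ^ (2 * bb n) = 1 := by
    rw [← Real.rpow_add (h0 x)]
    simp
  have h2 : ∀ m i j, pd m (fun y => cf U g y i j) x = U x ^ (2 * bb n) * dD g U x m i j :=
    fun m i j => by
      have h3 : pd m (fun y => cf U g y i j) x = _ :=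
        pd_mul ((hU.rpow h0 (2 * bb n)).diff x) ((hg.sm i j).diff x) m
      rw [h3, pd_rpow (hU.diff x) (h0 x).ne', Real.rpow_sub_one (h0 x).ne', dD]
      ring
  unfold chr
  simp only [h2, hg.up_cf (h0 x)]
  refine congrArg (· / 2) (Finset.sum_congr rfl fun l _ => ?_)
  linear_combination (up g k l x * (dD g U x i j l + dD g U x j i l - dD g U x l i j)) * h1

theorem eu_le (i j : Fin n) : |eu n x i j| ≤ 1 := by
  unfold eu
  split_ifs <;> simp

theorem le_two {a b e : ℝ} (h : |a - b| ≤ e) (hb : |b| ≤ 1) (he : e ≤ 1) : |a| ≤ 2 := by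
  have := abs_add_le b (a - b)
  rw [add_sub_cancel] at this
  linarith

theorem dD_le (hn : 3 ≤ n) (hU : Smooth U) {e : ℝ} (he : e ≤ 1 / 2) (h1 : |U x - 1| ≤ e)
    (h2 : ‖x‖ * ‖fderiv ℝ U x‖ ≤ e)
    (h3 : ∀ i j k, |g x i j - eu n x i j| ≤ e ∧ ‖x‖ * |pd k (fun y => g y i j) x| ≤ e)
    (m i j : Fin n) : ‖x‖ * |dD g U x m i j| ≤ 17 * e := by
  have u1 : 1 / 2 ≤ U x := by linarith [(abs_le.1 h1).1]
  have a1 : |2 * bb n / U x| ≤ 8 := by
    rw [abs_of_nonneg (div_nonneg (by linarith [bb_pos hn]) (by linarith)),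
      div_le_iff₀ (by linarith)]
    linarith [bb_le hn]
  have a2 : ‖x‖ * |pd m U x| ≤ e :=
    (mul_le_mul_of_nonneg_left (abs_pd_le (hU.diff x) m) (norm_nonneg x)).trans h2
  have a3 := le_two (h3 i j m).1 (eu_le i j) (by linarith)
  have a4 : |2 * bb n / U x| * (‖x‖ * |pd m U x|) * |g x i j| ≤ 8 * e * 2 :=
    mul_le_mul (mul_le_mul a1 a2 (by positivity) (by norm_num)) a3 (abs_nonneg _)
      (by linarith [(abs_nonneg _).trans h1])
  have a5 := mul_le_mul_of_nonneg_left (abs_add_le (2 * bb n / U x * pd m U x * g x i j)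
    (pd m (fun y => g y i j) x)) (norm_nonneg x)
  rw [abs_mul, abs_mul] at a5
  unfold dD
  linarith [(h3 i j m).2]

theorem sum_le {u : Fin n → ℝ} {a b c : Fin n → ℝ} {s B : ℝ} (hs : 0 ≤ s) (hu : ∀ l, |u l| ≤ 2)
    (ha : ∀ l, s * |a l| ≤ B) (hb : ∀ l, s * |b l| ≤ B) (hc : ∀ l, s * |c l| ≤ B) :
    s * |(∑ l, u l * (a l + b l - c l)) / 2| ≤ n * (3 * B) := by
  have h1 : ∀ l, s * |u l * (a l + b l - c l)| ≤ 2 * (3 * B) := fun l => by
    have h2 : |a l + b l - c l| ≤ |a l| + |b l| + |c l| :=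
      (abs_sub _ _).trans (add_le_add (abs_add_le _ _) le_rfl)
    have h3 := mul_le_mul_of_nonneg_left h2 hs
    rw [abs_mul, mul_left_comm]
    exact mul_le_mul (hu l) (by linarith [ha l, hb l, hc l]) (by positivity) zero_le_two
  have h4 := mul_le_mul_of_nonneg_left
    (Finset.abs_sum_le_sum_abs (fun l => u l * (a l + b l - c l)) Finset.univ) hs
  have h5 := Finset.sum_le_sum fun l (_ : l ∈ Finset.univ) => h1 l
  rw [← Finset.mul_sum, Finset.sum_const, Finset.card_univ, Fintype.card_fin, nsmul_eq_mul] at h5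
  rw [abs_div, abs_two]
  linarith

theorem hess_sq (G : Field n) (i j : Fin n) : hess G (fun y => ‖y‖ ^ 2) x i j =
    (if i = j then 2 else 0) - ∑ k, chr G k i j x * (2 * x k) := by
  unfold hess
  rw [show pd j (fun y : E n => ‖y‖ ^ 2) = fun y => 2 * y j from funext (pd_normSq j), pd_const_mul,
    pd_coord]
  simp only [pd_normSq, mul_ite, mul_one, mul_zero]

end CvxH

open CvxH in
/-- **CVX** -/
theorem cvx_of (hM : MAT) : CVX := by
  intro n hn
  obtain ⟨e₀, e0, K, K0, hK⟩ := hM n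
  have n0 : (0 : ℝ) < n := by exact_mod_cast (by omega : 0 < n)
  obtain ⟨e, p0, p1, p2, p3, p4⟩ : ∃ e > (0 : ℝ), e ≤ e₀ ∧ e ≤ 1 / K ∧ e ≤ 1 / 2 ∧
      e ≤ 1 / (51 * n ^ 3) :=
    ⟨min (min e₀ (1 / K)) (min (1 / 2) (1 / (51 * n ^ 3))), by positivity,
      (min_le_left _ _).trans (min_le_left _ _), (min_le_left _ _).trans (min_le_right _ _),
      (min_le_right _ _).trans (min_le_left _ _), (min_le_right _ _).trans (min_le_right _ _)⟩
  refine ⟨e, p0, fun g U x hg hU h0 h1 h2 h3 ξ => ?_⟩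
  rw [le_div_iff₀ K0] at p2
  rw [le_div_iff₀ (by positivity)] at p4
  have u1 : ∀ k l, |up g k l x| ≤ 2 := fun k l =>
    le_two ((hK g x e hg p0.le p1 fun i j => (h3 i j i).1).1 k l) (eu_le k l) (by linarith)
  have d1 := dD_le hn hU p3 h1 h2 h3
  have c1 : ∀ k i j, |chr (cf U g) k i j x * (2 * x k)| ≤ 2 * (n * (3 * (17 * e))) :=
    fun k i j => by
      have c2 := sum_le (norm_nonneg x) (u1 k) (d1 i j) (d1 j i) fun l => d1 l i j
      have c3 : |x k| ≤ ‖x‖ := by simpa using PiLp.norm_apply_le x k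
      have c4 := mul_le_mul_of_nonneg_right c3 (abs_nonneg (chr (cf U g) k i j x))
      rw [← chr_eq hg hU h0] at c2
      rw [abs_mul, abs_mul, abs_two]
      linarith
  have c5 := quad_le_of_bd (M := fun i j => ∑ k, chr (cf U g) k i j x * (2 * x k))
    (K := n * (2 * (n * (3 * (17 * e))))) (fun i j => (Finset.abs_sum_le_sum_abs _ _).trans
      ((Finset.sum_le_sum fun k _ => c1 k i j).trans (by simp))) ξ
  have c6 : 0 ≤ ∑ i, ξ i ^ 2 := Finset.sum_nonneg fun _ _ => sq_nonneg _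
  have c7 := mul_le_mul_of_nonneg_right p4 c6
  have c8 : ∑ i, ∑ j, (if i = j then (2 : ℝ) else 0) * ξ i * ξ j = 2 * ∑ i, ξ i ^ 2 := by
    simp [Finset.mul_sum, sq, mul_assoc]
  simp only [hess_sq, sub_mul, Finset.sum_sub_distrib, c8]
  linarith

/-- **VPI** -/
theorem vpi_of (hb : BUB) (hA : ASY) : VPI := by
  intro n g U r ρ η δ hn hg hf hU r1 hρ hη hδ p1 p2
  obtain ⟨b1, b2, b3, b4, ⟨A, b5⟩, -⟩ := hb n hn
  obtain ⟨w, hw⟩ : ∃ w : E n → ℝ,
      w = fun x => Real.smoothTransition (‖x‖ ^ 2 - r ^ 2) * bub n x := ⟨_, rfl⟩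
  have w1 : Smooth w := hw ▸ ContDiff.mul
    (Real.smoothTransition.contDiff.comp (contDiff_normSq.sub contDiff_const)) b1
  have w2 : ∀ x, 0 ≤ w x ∧ w x ≤ 1 := fun x => hw ▸
    ⟨mul_nonneg (Real.smoothTransition.nonneg _) (b4 x).1.le,
      mul_le_one₀ (Real.smoothTransition.le_one _) (b4 x).1.le (b4 x).2.1⟩
  have w3 : ∀ x, ‖x‖ ≤ r → w x = 0 := fun x hx => by
    rw [hw]
    exact mul_eq_zero_of_left (Real.smoothTransition.zero_of_nonpos
      (sub_nonpos.2 (pow_le_pow_left₀ (norm_nonneg x) hx 2))) _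
  have w4 : ∀ x, r + 1 ≤ ‖x‖ → w x = bub n x := fun x hx => by
    have := pow_le_pow_left₀ (by linarith) hx 2
    rw [hw]
    exact (congrArg (· * bub n x) (Real.smoothTransition.one_of_one_le (by nlinarith))).trans
      (one_mul _)
  have w5 : ∀ x, ρ ≤ ‖x‖ → lap g w x = -(n * (n - 2) * src n x) := fun x hx => by
    have e : w =ᶠ[𝓝 x] bub n := by
      filter_upwards [(isOpen_lt continuous_const continuous_norm).mem_nhds (hρ.trans_le hx)]
        with y hy using w4 y (le_of_lt hy)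
    rw [lap_congr e, hf.lap_eq' (by omega) hg b1 hx, (b4 x).2.2.2.2.1]
  have hK : IsCompact {x : E n | r ≤ ‖x‖ ∧ ‖x‖ ≤ ρ} :=
    (isCompact_closedBall (0 : E n) ρ).of_isClosed_subset
      ((isClosed_le continuous_const continuous_norm).inter
        (isClosed_le continuous_norm continuous_const)) fun x hx => by simpa using hx.2
  obtain ⟨t₁, t10, h1⟩ := Asm.small hK ((Asm.cont_cl hg hU).div_const 2) (Asm.cont_cl hg w1)
    fun x hx => half_pos (p1 x hx.1 hx.2)
  have n2 := nm2_pos hn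
  have nn : (0 : ℝ) < n * (n - 2) := mul_pos (by linarith) n2
  obtain ⟨t, t0, t1, t2, t3, t4⟩ : ∃ t > (0 : ℝ), t ≤ t₁ ∧ t ≤ 1 / 8 ∧ t ≤ η ∧
      t ≤ δ / (n * (n - 2)) :=
    ⟨min (min t₁ (1 / 8)) (min η (δ / (n * (n - 2)))), by positivity,
      (min_le_left _ _).trans (min_le_left _ _), (min_le_left _ _).trans (min_le_right _ _),
      (min_le_right _ _).trans (min_le_left _ _), (min_le_right _ _).trans (min_le_right _ _)⟩
  rw [le_div_iff₀ nn] at t4
  have s1 : Smooth fun x => t * w x := ContDiff.mul contDiff_const w1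
  have l1 : ∀ x, ρ ≤ ‖x‖ → lap g (fun x => t * w x) x = -(t * (n * (n - 2))) * src n x :=
    fun x hx => by
      rw [lap_const_mul, w5 x hx]
      ring
  have l2 : ∀ x, 0 < t * (n * (n - 2)) * src n x := fun x => mul_pos (mul_pos t0 nn) (b4 x).2.2.1
  have a1 : Asy w 0 1 := (hA n (bub n) w 0 0 1 1 hn b1 w1 b3).2.2.2.1 ⟨r + 1, w4⟩
  refine ⟨fun x => t * w x, t, s1, fun x => ⟨mul_nonneg t0.le (w2 x).1,
    (mul_le_of_le_one_right t0.le (w2 x).2).trans t2⟩, fun x hx => ?_, ?_, t3, ?_, fun x hx => ?_,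
    fun x hx => ?_⟩
  · show t * w x = 0
    rw [w3 x hx, mul_zero]
  · simpa only [mul_zero, zero_mul, add_zero, mul_one] using
      (hA n w w 0 0 1 1 hn w1 w1 a1).2.2.1 t 0 a1
  · obtain ⟨K, -, hK⟩ := bdd_of_out (ContDiff.continuous_fderiv (hg.sm_lap s1) (by simp)) (R := ρ)
      (C := ‖-(t * (n * (n - 2)))‖ * A) fun x hx => by
        have e : lap g (fun x => t * w x) =ᶠ[𝓝 x] fun y => -(t * (n * (n - 2))) * src n y := by
          filter_upwards [(isOpen_lt continuous_const continuous_norm).mem_nhds hx] with y hy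
            using l1 y (le_of_lt hy)
        rw [(((b2.diff x).hasFDerivAt.const_mul _).congr_of_eventuallyEq e).fderiv, norm_smul]
        exact mul_le_mul_of_nonneg_left (b5 x) (norm_nonneg _)
    exact ⟨K, hK⟩
  · rcases le_total ‖x‖ ρ with h | h
    · have e : cl g (fun x => t * w x) x = t * cl g w x := by
        unfold cl
        rw [lap_const_mul]
        ring
      rw [e]
      exact h1 t t0.le t1 x ⟨hx, h⟩
    · have e : cl g (fun x => t * w x) x = 4 * gam n * (t * (n * (n - 2)) * src n x) := by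
        unfold cl
        rw [l1 x h, hf.scal_eq' (by omega) hg h]
        ring
      have := mul_pos (by linarith [one_lt_gam hn] : 0 < 4 * gam n) (l2 x)
      linarith [p2 x h]
  · have k1 := mul_le_mul t4 ((b4 x).2.2.2.2.2 (by linarith)) (b4 x).2.2.1.le hδ.le
    rw [l1 x hx]
    constructor <;> linarith [l2 x]

end Vale.Agent.P366Y.A
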