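import Vale.Agent.P366Y.A.Defs
import Vale.Agent.P366Z.St0.Ext

/-!
# P366Y, block A: the extension of the data (row EXK)
-/

open MeasureTheory Metric Filter Topology Set Matrix
open scoped ContDiff ENNReal
open Vale.Agent.P366.Stmt Vale.Agent.P366Z Vale.Agent.P366Z.St0

noncomputable section

namespace Vale.Agent.P366Y.A

namespace ExkH

variable {n : ℕ} {g g' K : Field n} {F F' : E n → ℝ} {x : E n}

theorem mom_ev (e : g =ᶠ[𝓝 x] g') : covNorm g (mom g K) x = covNorm g' (mom g' K) x := by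
  have h0 : ∀ y, g y = g' y → momT g K y = momT g' K y := fun y hy => by
    funext i j
    simp only [momT, tr, up_of_eq hy, hy]
  have h1 : ∀ i j k, pd k (fun y => momT g K y i j) x = pd k (fun y => momT g' K y i j) x :=
    fun i j k => pd_congr (e.mono fun y hy => by simp only [h0 y hy]) k
  simp only [covNorm, mom, h1, h0 x e.eq_of_nhds, up_of_eq e.eq_of_nhds, chr_of_ev e]

theorem mu_ev (e : g =ᶠ[𝓝 x] g') : mu g K x = mu g' K x := by
  simp only [mu, tr, normSq, scal_of_ev e, up_of_eq e.eq_of_nhds]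

theorem th_ev (e : g =ᶠ[𝓝 x] g') (e' : F =ᶠ[𝓝 x] F') :
    thetaPlus g K F x = thetaPlus g' K F' x := by
  have h1 : ∀ i j, pd i (pd j F) x = pd i (pd j F') x := fun i j => pd_congr (pd_congr_ev e' j) i
  simp only [thetaPlus, trS, tr, hess, nrm, covNorm, up_of_eq e.eq_of_nhds, chr_of_ev e,
    pd_congr e', h1]

theorem dk_bd {c : ℝ} (hc : 0 ≤ c) (hu : ∀ i j, |up g i j x| ≤ 2) (hK : ∀ i j, |K x i j| ≤ c) :
    √(normSq g K x) ≤ 2 * n ^ 2 * c ∧ |tr g K x| ≤ 2 * n ^ 2 * c := by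
  constructor
  · refine Real.sqrt_le_iff.2 ⟨by positivity, ?_⟩
    have h1 : ∀ i j k l, up g i k x * up g j l x * K x i j * K x k l ≤ 2 * 2 * c * c :=
      fun i j k l => (le_abs_self _).trans (by
        rw [abs_mul, abs_mul, abs_mul]
        have := hu i k
        have := hu j l
        have := hK i j
        have := hK k l
        gcongr)
    refine (Finset.sum_le_sum fun i _ => Finset.sum_le_sum fun j _ => Finset.sum_le_sum fun k _ =>
      Finset.sum_le_sum fun l _ => h1 i j k l).trans (le_of_eq ?_)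
    simp only [Finset.sum_const, Finset.card_univ, Fintype.card_fin, nsmul_eq_mul]
    ring
  · have h1 : ∀ i j, |up g i j x * K x i j| ≤ 2 * c := fun i j => by
      rw [abs_mul]
      have := hu i j
      have := hK i j
      gcongr
    refine (Finset.abs_sum_le_sum_abs _ _).trans ((Finset.sum_le_sum fun i _ =>
      (Finset.abs_sum_le_sum_abs _ _).trans (Finset.sum_le_sum fun j _ => h1 i j)).trans
        (le_of_eq ?_))
    simp only [Finset.sum_const, Finset.card_univ, Fintype.card_fin, nsmul_eq_mul]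
    ring

theorem up_bd (hm : MAT) (n : ℕ) : ∃ e > (0 : ℝ), ∀ (g : Field n) (x : E n), Met g →
    (∀ i j, |g x i j - eu n x i j| ≤ e) → ∀ i j, |up g i j x| ≤ 2 := by
  obtain ⟨e, e0, L, L0, h⟩ := hm n
  refine ⟨min e (1 / L), by positivity, fun g x hg h1 i j => ?_⟩
  have h2 := (h g x _ hg (by positivity) (min_le_left _ _) h1).1 i j
  have h3 : L * min e (1 / L) ≤ 1 :=
    (mul_le_mul_of_nonneg_left (min_le_right _ _) L0.le).trans (by rw [mul_one_div_cancel L0.ne'])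
  have h4 : |eu n x i j| ≤ 1 := by
    unfold eu
    split_ifs <;> simp
  have h5 := abs_add_le (up g i j x - eu n x i j) (eu n x i j)
  rw [sub_add_cancel] at h5
  linarith

end ExkH

open ExtA ExkH in
/-- **EXK** -/
theorem exk_of (hmat : MAT) : EXK := by
  intro n D m hn ⟨q, hq, hA⟩ hs hm hE
  obtain ⟨sF, hz, hc, R, hR⟩ := D.dom
  obtain ⟨R₀, r1, r2⟩ : ∃ R₀ : ℝ, 1 ≤ R₀ ∧ R < R₀ :=
    ⟨max 1 (R + 1), le_max_left _ _, (lt_add_one R).trans_le (le_max_right _ _)⟩
  obtain ⟨F, hF⟩ : ∃ F : E n → ℝ, ∀ x, F x = D.F x + (1 - cut R₀ x) := ⟨_, fun _ => rfl⟩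
  have sF' : Smooth F := funext hF ▸ ContDiff.add sF (contDiff_const.sub (sm_cut R₀))
  have f1 : ∀ x, D.F x ≤ F x := fun x => by
    rw [hF]
    linarith [cut_le_one R₀ x]
  have f2 : ∀ x : E n, ‖x‖ ≤ R₀ → F x = D.F x := fun x hx => by rw [hF, cut_one hx]; ring
  have f3 : ∀ x, D.F x ≤ 0 → ‖x‖ < R₀ := fun x hx =>
    (not_lt.1 fun k => (hR x k).not_ge hx).trans_lt r2
  have f4 : ∀ x, 0 ≤ F x → 0 ≤ D.F x := fun x hx => by
    by_contra k
    exact k (f2 x (f3 x (not_le.1 k).le).le ▸ hx)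
  have f5 : ∀ x, F x = 0 → F =ᶠ[𝓝 x] D.F := fun x hx => by
    filter_upwards [(isOpen_lt continuous_norm continuous_const).mem_nhds
      (f3 x ((f1 x).trans hx.le))] with y hy using f2 y (le_of_lt hy)
  have f6 : ∀ x : E n, 2 * R₀ ≤ ‖x‖ → 1 ≤ F x := fun x hx => by
    rw [hF, cut_zero (by linarith) hx]
    linarith [hR x (show R < ‖x‖ by linarith)]
  obtain ⟨s, s0, s1⟩ : ∃ s > (0 : ℝ), ∀ x, -(2 * s) < F x → (mat D.g x).PosDef := by
    have k1 : IsCompact {x | ¬ (mat D.g x).PosDef} := by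
      refine (isCompact_closedBall (0 : E n) R₀).of_isClosed_subset ?_ fun x hx => ?_
      · exact isClosed_compl_iff.2 (isOpen_iff_mem_nhds.2 fun x hx =>
          pos_ev (fun i j => (D.smooth i j).1.cont) (fun x i j => (D.symm x i j).1) hx)
      · exact mem_closedBall_zero_iff.2 (f3 x (not_lt.1 fun k => hx (D.pos x k.le))).le
    obtain ⟨c, c0, c1⟩ := k1.exists_forall_le' (f := fun x => -F x) sF'.cont.neg.continuousOn
      (a := 0) fun x hx => neg_pos.2 (not_le.1 fun k => hx (D.pos x (f4 x k)))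
    refine ⟨c / 2, by positivity, fun x hx => ?_⟩
    by_contra k
    linarith [c1 x k]
  obtain ⟨χ, hχ⟩ : ∃ χ : E n → ℝ, ∀ x, χ x = Real.smoothTransition (F x / s + 2) :=
    ⟨_, fun _ => rfl⟩
  have sχ : Smooth χ := funext hχ ▸
    Real.smoothTransition.contDiff.comp ((ContDiff.div_const sF' s).add contDiff_const)
  obtain ⟨g, hg⟩ : ∃ g : Field n, ∀ x i j, g x i j = χ x * D.g x i j + (1 - χ x) * eu n x i j :=
    ⟨_, fun _ _ _ => rfl⟩
  have g1 : ∀ x, 0 ≤ F x → g =ᶠ[𝓝 x] D.g := fun x hx => by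
    filter_upwards [sF'.cont.continuousAt.eventually (lt_mem_nhds ((neg_neg_of_pos s0).trans_le hx))]
      with y hy
    have k : χ y = 1 := by
      rw [hχ]
      refine Real.smoothTransition.one_of_one_le ?_
      have := (le_div_iff₀ s0).2 (show -1 * s ≤ F y by linarith)
      linarith
    funext i j
    rw [hg, k]
    ring
  have g2 : ∀ x, 0 ≤ F x → ∀ i j, (fun y => g y i j) =ᶠ[𝓝 x] fun y => D.g y i j :=
    fun x hx i j => (g1 x hx).mono fun y hy => by simp only [hy]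
  have hM : Met g := by
    refine ⟨fun i j => ?_, fun x i j => by rw [hg, hg, (D.symm x i j).1, met_eu.sy x i j],
      fun x => ?_⟩
    · rw [funext fun x => hg x i j]
      exact (ContDiff.mul sχ (D.smooth i j).1).add ((contDiff_const.sub sχ).mul (met_eu.sm i j))
    · have k : mat g x = χ x • mat D.g x + (1 - χ x) • mat (eu n) x := Matrix.ext (hg x)
      have k0 : 0 ≤ χ x := hχ x ▸ Real.smoothTransition.nonneg _
      have k1 : χ x ≤ 1 := hχ x ▸ Real.smoothTransition.le_one _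
      rw [k]
      rcases k0.lt_or_eq with k2 | k2
      · refine ((s1 x (not_le.1 fun k3 => k2.ne' ?_)).smul k2).add_posSemidef
          ((met_eu.pos x).posSemidef.smul (sub_nonneg.2 k1))
        rw [hχ]
        refine Real.smoothTransition.zero_of_nonpos ?_
        have := (div_le_iff₀ s0).2 (show F x ≤ -2 * s by linarith)
        linarith
      · simpa [← k2] using met_eu.pos x
  obtain ⟨C₁, R₁, a1⟩ := unif fun t : Fin n × Fin n => (hA t.1 t.2 t.1 t.1).1
  obtain ⟨C₂, R₂, a2⟩ := unif fun t : Fin n × Fin n × Fin n => (hA t.1 t.2.1 t.2.2 t.1).2.1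
  obtain ⟨C₃, R₃, a3⟩ := unif fun t : Fin n × Fin n × Fin n × Fin n =>
    (hA t.1 t.2.1 t.2.2.1 t.2.2.2).2.2.1
  obtain ⟨C₄, R₄, a4⟩ := unif fun t : Fin n × Fin n => (hA t.1 t.2 t.1 t.1).2.2.2.1
  obtain ⟨C, c0, c1, c2, c3, c4⟩ : ∃ C : ℝ, 1 ≤ C ∧ C₁ ≤ C ∧ C₂ ≤ C ∧ C₃ ≤ C ∧ C₄ ≤ C :=
    ⟨max (max 1 C₁) (max (max C₂ C₃) C₄), by simp, by simp, by simp, by simp, by simp⟩
  obtain ⟨e, e0, he⟩ := up_bd hmat n
  have hn' : (3 : ℝ) ≤ n := by exact_mod_cast hn
  have q0 : 0 < q := by linarith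
  obtain ⟨R₅, a5⟩ := eventually_atTop.1 ((tendsto_rpow_neg_atTop q0).eventually
    (ge_mem_nhds (show 0 < e / C by positivity)))
  obtain ⟨P, p0, p1, p2, p3, p4, p5⟩ :
      ∃ P : ℝ, 2 * R₀ ≤ P ∧ R₁ ≤ P ∧ R₂ ≤ P ∧ R₃ ≤ P ∧ R₄ ≤ P ∧ R₅ ≤ P :=
    ⟨max (max (2 * R₀) R₁) (max (max R₂ R₃) (max R₄ R₅)), by simp, by simp, by simp, by simp,
      by simp, by simp⟩
  have c5 : C ≤ 2 * n ^ 2 * C := le_mul_of_one_le_left (by linarith) (by nlinarith)
  have f7 : ∀ x : E n, P ≤ ‖x‖ → 0 ≤ F x := fun x hx => zero_le_one.trans (f6 x (p0.trans hx))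
  refine ⟨g, F, q, 2 * n ^ 2 * C, P, ⟨⟨hn, hM, hq, by linarith, by linarith,
    fun x hx i j k l => ?_, ?_⟩,
    ⟨sF', fun x hx => ?_, ?_, R, fun x hx => (hR x hx).trans_le (f1 x)⟩,
    fun x hx => f6 x (p0.trans hx), ?_,
    ⟨fun i j => (D.smooth i j).2, fun x i j => (D.symm x i j).2⟩, fun x hx => ?_,
    fun x hx => ?_, fun x hx => ?_⟩,
    fun x hx => f2 x (f3 x hx).le ▸ hx, fun x hx => hx.trans (f1 x),
    fun x hx => (g1 x (hx.trans (f1 x))).eq_of_nhds⟩
  · have e := g2 x (f7 x hx) i j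
    rw [(g1 x (f7 x hx)).eq_of_nhds, pd_congr e, pd_congr (pd_congr_ev e k),
      show q + 2 = q + 1 + 1 by ring]
    exact ⟨a1 _ (c1.trans c5) (i, j) x (p1.trans hx), a2 _ (c2.trans c5) (i, j, k) x (p2.trans hx),
      a3 _ (c3.trans c5) (i, j, k, l) x (p3.trans hx)⟩
  · refine Tendsto.congr' ?_ hE
    filter_upwards [eventually_ge_atTop P] with r hr
    refine flx_congr (by linarith) fun i x hx => ?_
    simp only [yv, pd_congr (g2 x (f7 x (hx ▸ hr)) _ _)]
  · simp only [pd_congr (f5 x hx)]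
    exact hz x ((f5 x hx).eq_of_nhds.symm.trans hx)
  · rwa [show {x | 0 ≤ F x} = {x | 0 ≤ D.F x} from
      Set.ext fun x => ⟨f4 x, fun hx => le_trans hx (f1 x)⟩]
  · obtain ⟨x, hx⟩ := D.bdry
    by_contra k
    push Not at k
    refine fd_ne sF (hz x hx) (IsLocalMin.fderiv_eq_zero (Eventually.of_forall fun y => ?_))
    rw [hx]
    exact f4 y (k y)
  · rw [mul_assoc _ C]
    refine dk_bd (by positivity) (he g x hM fun i j => ?_) fun i j =>
      a4 C c4 (i, j) x (p4.trans hx)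
    rw [(g1 x (f7 x hx)).eq_of_nhds]
    refine (a1 C c1 (i, j) x (p1.trans hx)).trans ?_
    rw [← le_div_iff₀' (by linarith)]
    exact a5 _ (p5.trans hx)
  · rw [mom_ev (g1 x hx), mu_ev (g1 x hx)]
    exact hs x (f4 x hx)
  · rw [th_ev (g1 x hx.ge) (f5 x hx)]
    exact hm x ((f5 x hx).eq_of_nhds.symm.trans hx)

end Vale.Agent.P366Y.A
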