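import Vale.Agent.P366Y.A.Fin1
import Vale.Agent.P366Y.Defs
import Vale.Agent.P366Y.C.Orth
import Vale.Agent.P366Z.St0.Asm

/-!
# P366Y, block A: the assembly
-/

open MeasureTheory Metric Filter Topology Set
open scoped ContDiff ENNReal
open Vale.Agent.P366.Stmt Vale.Agent.P366Z Vale.Agent.P366Z.St0

noncomputable section

namespace Vale.Agent.P366Y.A

namespace FinA

variable {n : ℕ} {g K : Field n} {F U p : E n → ℝ} {q C C' R m : ℝ}

theorem cmp {D : Exterior n} (hn : 3 ≤ n) (hg : Met g) {η κ e ρ : ℝ} (κ0 : 0 < κ) (κ1 : κ ≤ 1 / 8)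
    (κ2 : κ ≤ η / 8) (hA : Af g q C R) (g1 : Met (gc g ρ)) (g3 : Af (gc g ρ) q C' R)
    (g4 : ∀ x, ‖x‖ ≤ ρ → gc g ρ x = g x) (r2 : R ≤ ρ) (r1 : ∀ s ≥ ρ, max C C' * s ^ (-q) ≤ e)
    (he : ∀ (g g' : Field n) (x : E n), Met g → Met g' → (∀ i j, |g x i j - eu n x i j| ≤ e) →
      (∀ i j, |g' x i j - eu n x i j| ≤ e) → ∀ ξ : Fin n → ℝ,
      (1 - κ) * (dens g x * covNorm g (fun i _ => ξ i) x) ≤
        covNorm g' (fun i _ => ξ i) x * dens g' x)
    (f3 : ∀ x, 0 ≤ D.F x → g x = D.g x) (hU : ∀ x, 1 - κ ≤ U x) : Y.Cmp D η (gc g ρ) U := by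
  intro x hx ξ
  have e1 : covNorm D.g (fun i _ => ξ i) x = covNorm g (fun i _ => ξ i) x := by
    unfold covNorm; simp only [up_of_eq (f3 x hx)]
  have a0 : 0 ≤ dens g x * covNorm g (fun i _ => ξ i) x :=
    mul_nonneg (dens_nonneg _ _) (Real.sqrt_nonneg _)
  have a1 : (1 - κ) * (dens g x * covNorm g (fun i _ => ξ i) x) ≤
      covNorm (gc g ρ) (fun i _ => ξ i) x * dens (gc g ρ) x := by
    rcases le_total ‖x‖ ρ with k | k
    · have e2 : covNorm (gc g ρ) (fun i _ => ξ i) x = covNorm g (fun i _ => ξ i) x := by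
        unfold covNorm; simp only [up_of_eq (g4 x k)]
      rw [e2, dens_of_eq (g4 x k)]
      nlinarith
    · have k1 := r1 ‖x‖ k
      have k2 : 0 ≤ ‖x‖ ^ (-q) := Real.rpow_nonneg (norm_nonneg _) _
      exact he g (gc g ρ) x hg g1
        (fun i j => ((hA x (r2.trans k) i j i i).1.trans
          (mul_le_mul_of_nonneg_right (le_max_left _ _) k2)).trans k1)
        (fun i j => ((g3 x (r2.trans k) i j i i).1.trans
          (mul_le_mul_of_nonneg_right (le_max_right _ _) k2)).trans k1) ξ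
  have a2 := Asm.pw κ0.le κ1 (hU x) (p := 2 * gam n) (by linarith [one_lt_gam hn])
    (by linarith [gam_le hn])
  rw [← dens_of_eq (f3 x hx), e1, mul_assoc]
  calc (1 - η) * (dens g x * covNorm g (fun i _ => ξ i) x)
      ≤ (1 - 4 * κ) * (1 - κ) * (dens g x * covNorm g (fun i _ => ξ i) x) :=
        mul_le_mul_of_nonneg_right (by nlinarith) a0
    _ ≤ _ := by
        rw [mul_assoc]
        exact mul_le_mul a2 a1 (mul_nonneg (by linarith) a0) (by linarith)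

theorem ev_small (hq : 0 < q) (C : ℝ) {e : ℝ} (e0 : 0 < e) :
    ∃ ρ, ∀ s ≥ ρ, C * s ^ (-q) ≤ e := by
  have := (tendsto_rpow_neg_atTop hq).const_mul C
  rw [mul_zero] at this
  exact eventually_atTop.1 (this.eventually (ge_mem_nhds e0))

theorem nsq0 (hg : Met g) (hK : Sy K) (x : E n) : 0 ≤ normSq g K x :=
  (C.orth n g K (fun _ => 0) (fun _ => 0) x hg (hK.sy x)).1

/-- the conformal Laplacian in the far region -/
theorem far_cl (hB : Bk g K F q C R m) {κ r ρ β : ℝ} (hU : Fk g K F p m κ r ρ U β)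
    (κ1 : κ ≤ 1 / 8) (hr : R ≤ r) {x : E n} (h1 : r ≤ ‖x‖) (h2 : ‖x‖ ≤ 2 * ρ) :
    2 * normSq g K x < cl (gc g ρ) U x := by
  have a1 := hU.pos x h1 h2
  have a2 := (Real.sqrt_nonneg _).trans (hB.dec x (by linarith [hB.far x (hr.trans h1)]))
  have a3 := abs_le.1 (hU.bd x)
  have a4 : 0 ≤ normSq g K x := nsq0 hB.met hB.sy x
  have a5 : -(tr g K x ^ 2) ≤ scal g x := by
    unfold mu at a2
    linarith
  have c0 := cut_nonneg ρ x
  have c1 := cut_le_one ρ x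
  have a6 : -(tr g K x ^ 2) ≤ cut ρ x * scal g x := by nlinarith [sq_nonneg (tr g K x)]
  have a7 : -(tr g K x ^ 2) * U x ≤ cut ρ x * scal g x * U x :=
    mul_le_mul_of_nonneg_right a6 (by linarith)
  unfold cl
  unfold fe at a1
  nlinarith [sq_nonneg (tr g K x)]

end FinA

/-- **RED0**: the output of block A -/
def RED0 : Prop := ∀ (n : ℕ) (D : Exterior n) (m : ℝ), 3 ≤ n → D.IsAF → D.DEC → D.Trapped →
  D.IsEnergy m → ∀ η > (0 : ℝ), ∃ ρ : ℝ, ∀ δ > (0 : ℝ), ∃ X : Dat n, X.Ok ∧ X.ρ = ρ ∧ X.Of D m η δ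

open FinA Fin1 in
theorem red0_of (hE : EXK) (h1 : CF1) (h2 : CF2) (h3 : CF3) (hO : COK) (hP : PRE) (hI : INN)
    (hX : CVX) (hV : VPI) (hM : CUTM) (hC : CMP) : RED0 := by
  intro n D m hn d1 d2 d3 d4 η hη
  obtain ⟨g, F, q, C, R, hB, f1, -, f3⟩ := hE n D m hn d1 d2 d3 d4
  obtain ⟨ec, ec0, hcv⟩ := hX n hn
  obtain ⟨κ, κ0, κ1, κ2, κ3⟩ : ∃ κ > (0 : ℝ), κ ≤ 1 / 8 ∧ κ ≤ η / 8 ∧ κ ≤ ec :=
    ⟨min (min (1 / 8) (η / 8)) ec, by positivity, (min_le_left _ _).trans (min_le_left _ _),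
      (min_le_left _ _).trans (min_le_right _ _), min_le_right _ _⟩
  obtain ⟨e, e0, he⟩ := hC n κ κ0
  obtain ⟨C', C0, hc⟩ := hM n q C hB.C0
  have n3 : (3 : ℝ) ≤ n := by exact_mod_cast hn
  have q0 : 0 < q := by linarith [hB.q0]
  have R1 := hB.R1
  obtain ⟨ρ₁, hρ₁⟩ := ev_small q0 (max C C') e0
  obtain ⟨ρ₂, hρ₂⟩ := ev_small q0 C ec0
  obtain ⟨r, hr, p0, p, pp, ρ₀, hp⟩ := hP n g D.K F q C R m hB κ κ0 (6 * n) (by positivity)
    (max (max 8 R) ρ₂)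
  have r8 : 8 ≤ r := ((le_max_left _ _).trans (le_max_left _ _)).trans hr
  have rR : R ≤ r := ((le_max_right _ _).trans (le_max_left _ _)).trans hr
  have r2 : ρ₂ ≤ r := (le_max_right _ _).trans hr
  obtain ⟨ρ, a0, a1, a2⟩ : ∃ ρ, ρ₀ ≤ ρ ∧ ρ₁ ≤ ρ ∧ 3 * r ≤ ρ :=
    ⟨max ρ₀ (max ρ₁ (3 * r)), le_max_left _ _, (le_max_left _ _).trans (le_max_right _ _),
      (le_max_right _ _).trans (le_max_right _ _)⟩
  obtain ⟨U, β, hU⟩ := hp ρ a0
  obtain ⟨g1, g2, g3, g4, g5⟩ := hc g R ρ hB.met hB.af (by linarith) (by linarith)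
  refine ⟨4 * ρ, fun δ hδ => ?_⟩
  have Ub : ∀ x, 7 / 8 ≤ U x ∧ U x ≤ 9 / 8 := fun x => by
    have := abs_le.1 (hU.bd x)
    constructor <;> linarith
  have U0 : ∀ x, 0 < U x := fun x => by linarith [(Ub x).1]
  obtain ⟨χ, sχ, χ01, χ1, χ0⟩ := ex_chi (n := n) (a := r + 5 / 2) (b := r + 3) (by linarith)
    (by linarith)
  have s1 := sy_cu sχ hB.sy
  obtain ⟨mg', s2, cf1⟩ := h1 n (gc g ρ) (cu χ D.K) U hn g1 s1 hU.sm U0
  have sF : Smooth F := hB.ext.1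
  have lt : ∀ x, F x < 1 → ‖x‖ < R := fun x hx => by
    by_contra k
    linarith [hB.far x (not_lt.1 k)]
  have γ1 := one_lt_gam hn
  obtain ⟨s, s0, h, h0, hcol⟩ := hO n _ _ F mg' s2 sF ⟨R, hB.far⟩ fun x hx => by
    have x1 := lt x (by linarith)
    have e := g5 x (by linarith)
    have k := Asm.gn_ne g1 (hB.ext.2.1 x hx)
    refine ⟨Asm.gn_ne mg' (hB.ext.2.1 x hx), ?_⟩
    rw [h3 n _ _ U F x hn g1 s1 hU.sm U0 sF k, th_ev e (cu_ev (χ1 x (by linarith))).eq_of_nhds,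
      ip_of_eq e.eq_of_nhds]
    refine mul_neg_of_pos_of_neg (Real.rpow_pos_of_pos (U0 x) _) ?_
    have := div_neg_of_neg_of_pos (mul_neg_of_pos_of_neg (show 0 < 2 * gam n by linarith)
      (hU.dir x hx)) (mul_pos (U0 x) (lt_of_le_of_ne (gn_nonneg _ _ _) k.symm))
    linarith [hB.trap x hx]
  obtain ⟨s₀, t0, t1, t2⟩ : ∃ s₀ > (0 : ℝ), s₀ ≤ s ∧ s₀ ≤ 1 / 2 :=
    ⟨min s (1 / 2), by positivity, min_le_left _ _, min_le_right _ _⟩
  obtain ⟨K', k₀, s3, k1, i1, i2, i3, i4⟩ := hI n _ _ F s₀ h hn mg' s2 sF ⟨R, hB.far⟩ t0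
    fun x hx => hcol x (hx.trans t1)
  have F0 : ∀ x : E n, r ≤ ‖x‖ → 0 ≤ F x := fun x hx => by linarith [hB.far x (rR.trans hx)]
  have fl : ∀ x : E n, 2 * ρ ≤ ‖x‖ → 0 ≤ cl (gc g ρ) U x := fun x hx => by
    unfold cl
    rw [g2.scal_eq' (by omega) g1 hx]
    nlinarith [hU.neg x hx]
  have ps : ∀ x : E n, r ≤ ‖x‖ → ‖x‖ ≤ 2 * ρ → 0 < cl (gc g ρ) U x := fun x a b => by
    linarith [far_cl hB hU κ1 rR a b, nsq0 hB.met hB.sy x]
  obtain ⟨ϖ, β₂, v1, v2, v3, v4, v5, v6, v7, v8⟩ := hV n (gc g ρ) U (r + 8) (2 * ρ) κ δ hn g1 g2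
    hU.sm (by linarith) (by linarith) κ0 hδ (fun x a b => ps x (by linarith) b) fl
  have nq : ∀ x : E n, r ≤ ‖x‖ → ‖x‖ ≤ ρ → normSq (cf U (gc g ρ)) K' x ≤
      U x ^ (-(2 * bb n)) * normSq g D.K x := fun x a b => by
    rw [nsq_eq rfl (i1 x (F0 x a)).eq_of_nhds, (cf1 x).2.1, nsq_cu, nsq_eq (g4 x b) rfl]
    refine mul_le_mul_of_nonneg_left (mul_le_of_le_one_left (nsq0 hB.met hB.sy x) ?_)
      (Real.rpow_pos_of_pos (U0 x) _).le
    nlinarith [(χ01 x).1, (χ01 x).2]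
  have K0 : ∀ x : E n, r + 3 ≤ ‖x‖ → K' x = 0 := fun x hx => by
    rw [(i1 x (F0 x (by linarith))).eq_of_nhds]
    funext i j
    simp only [ck, cu, χ0 x hx, zero_mul, mul_zero, Pi.zero_apply]
  have b0 := bb_pos hn
  have b2 := bb_le hn
  refine ⟨⟨gc g ρ, K', F, U, ϖ, p, r, 4 * ρ, p0, s₀, min h 1, k₀, β, β₂⟩,
    ⟨hn, g1, g2.mono (by linarith), by simp only; linarith, by simp only; linarith, hU.sm,
      fun x => ⟨by linarith [(Ub x).1], (Ub x).2⟩, hU.out, hU.asy, s3.sm, s3.sy, K0, sF,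
      fun x hx => ?_, pp.sm, pp.p00, pp.pb, fun x hx => pp.pz x (by simp only at hx; linarith),
      fun x hx => ⟨pp.p1 x (by simp only at hx; linarith), ?_⟩, fun x hx hx' => ?_,
      fun x hx hx' => ?_, fun x hx => ⟨?_, v7 x hx⟩, fun x hx hx' => ?_, t0,
      ⟨lt_min h0 one_pos, min_le_right _ _, k1⟩, fun x hx => (hcol x (hx.trans t1)).1,
      fun x a b => ?_, i3, i4, v1, v2, v3, v4, v6⟩, rfl,
    ⟨by simp only; linarith [hU.mass], fun x hx => v8 x (by simp only at hx; linarith), f1,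
      cmp hn hB.met κ0 κ1 κ2 hB.af g1 g3 g4 (by linarith) (fun s hs => hρ₁ s (a1.trans hs)) he f3
        fun x => by linarith [(abs_le.1 (hU.bd x)).1]⟩⟩
  all_goals simp only [Dat.g] at *
  · linarith [hB.far x (rR.trans hx)]
  · rcases le_total ‖x‖ ρ with k | k
    · have c1 := pp.core x hx
      have c2 := nsq0 hB.met hB.sy x
      have c3 := (nq x hx k).trans (mul_le_mul_of_nonneg_right
        (pw_le (Ub x).1 (Ub x).2 (by linarith) (by linarith)) c2)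
      have c4 := pow_le_pow_left₀ (by positivity) c1 2
      rw [mul_pow, Real.sq_sqrt c2] at c4
      have c5 := mul_le_mul_of_nonneg_left c3 (show (0 : ℝ) ≤ n by positivity)
      nlinarith [mul_nonneg (show (0 : ℝ) ≤ n * (n - 1) by nlinarith) c2,
        mul_nonneg (show (0 : ℝ) ≤ n * n by positivity) c2]
    · have : normSq (cf U (gc g ρ)) K' x = 0 := by
        simp only [normSq, K0 x (by linarith), Pi.zero_apply, mul_zero, Finset.sum_const_zero]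
      rw [this, mul_zero]
      positivity
  · have e := g5 x (by linarith)
    have e' := cu_ev (K := D.K) (χ1 x (by linarith))
    have c1 := h2 n _ _ U hn g1 s1 hU.sm U0 x
    rw [cov_ev e e', nsq_eq e.eq_of_nhds e'.eq_of_nhds, gn_of_eq e.eq_of_nhds,
      ← cov_ev EventuallyEq.rfl (i1 x hx)] at c1
    refine lt_of_le_of_lt (add_le_add le_rfl (min_le_right _ _)) ?_
    rw [mu_ev EventuallyEq.rfl (i1 x hx).eq_of_nhds, tr_eq rfl (i1 x hx).eq_of_nhds,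
      (cf1 x).2.2.2.2, (cf1 x).1, (cf1 x).2.2.1, mu_ev e e'.eq_of_nhds, lap_of_ev e,
      tr_eq e.eq_of_nhds e'.eq_of_nhds, gn_of_eq e.eq_of_nhds]
    exact dec_alg (Ub x).1 (Ub x).2 b0 b2 γ1 (hB.dec x hx) (gn_nonneg _ _ _) (pp.pb x).1
      (hU.str x hx (by linarith)) c1
  · have c1 := nq x (by linarith) (by linarith)
    have c2 := far_cl hB hU κ1 rR (x := x) (by linarith) (by linarith)
    have c3 : U x ^ (-(2 * bb n)) = U x ^ (-(2 * bb n) - 1) * U x := by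
      rw [Real.rpow_sub_one (U0 x).ne', div_mul_cancel₀ _ (U0 x).ne']
    have c4 : U x * normSq g D.K x < cl (gc g ρ) U x := by
      nlinarith [nsq0 hB.met hB.sy x, (Ub x).2]
    have c5 := mul_lt_mul_of_pos_left c4 (Real.rpow_pos_of_pos (U0 x) (-(2 * bb n) - 1))
    unfold mu
    rw [(cf1 x).2.2.2.1]
    rw [c3, mul_assoc] at c1
    linarith
  · exact (le_total ‖x‖ (2 * ρ)).elim (fun k => (ps x (by linarith) k).le) (fl x)
  · have e := g5 x (by linarith)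
    have x0 : 0 < ‖x‖ := by linarith
    have k := hρ₂ _ (r2.trans hx)
    refine hcv (gc g ρ) U x g1 hU.sm U0 ((hU.bd x).trans κ3) ((hU.gr x (by linarith)).trans κ3)
      fun i j l => ?_
    have af := hB.af x (rR.trans hx) i j l l
    rw [e.eq_of_nhds, pd_congr (h := fun y => g y i j) (e.mono fun y hy => by simp only [hy])]
    refine ⟨af.1.trans k, (mul_le_mul_of_nonneg_left af.2.1 x0.le).trans (le_of_eq_of_le ?_ k)⟩
    rw [neg_add', Real.rpow_sub_one x0.ne']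
    field_simp
  · exact (i2 x (abs_le.2 ⟨by linarith, b⟩)).trans (neg_le_neg (min_le_left _ _))

end Vale.Agent.P366Y.A
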