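import Vale.Agent.P366Y.A.Defs
import Vale.Agent.P366Z.St0.Mc0

/-!
# P366Y, block A: the bump subsolution and the collar
-/

open MeasureTheory Metric Filter Topology Set
open scoped ContDiff ENNReal
open Vale.Agent.P366.Stmt Vale.Agent.P366Z Vale.Agent.P366Z.St0

noncomputable section

namespace Vale.Agent.P366Y.A

namespace HopX

variable {n : ℕ}

theorem psi {l : ℝ} : ∃ Ψ ψ : ℝ → ℝ, ContDiff ℝ ∞ Ψ ∧ deriv Ψ = ψ ∧ (∀ t ≤ 0, Ψ t = 0) ∧
    (∀ t ≤ 0, ψ t = 0) ∧ (∀ t > 0, 0 < ψ t) ∧ ∀ t, l * ψ t ≤ deriv ψ t := by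
  have hG : ContDiff ℝ ∞ expNegInvGlue := expNegInvGlue.contDiff
  have hψ : ContDiff ℝ ∞ fun u : ℝ => Real.exp (l * u) * expNegInvGlue u :=
    (contDiff_const.mul contDiff_id).exp.mul hG
  have hd : ∀ t, HasDerivAt (fun t => ∫ u in (0 : ℝ)..t, Real.exp (l * u) * expNegInvGlue u)
      (Real.exp (l * t) * expNegInvGlue t) t := fun t =>
    (hψ.continuous.integral_hasStrictDerivAt 0 t).hasDerivAt
  have e : deriv (fun t => ∫ u in (0 : ℝ)..t, Real.exp (l * u) * expNegInvGlue u) =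
      fun u => Real.exp (l * u) * expNegInvGlue u := funext fun t => (hd t).deriv
  refine ⟨_, _, contDiff_infty_iff_deriv.2 ⟨fun t => (hd t).differentiableAt, by rwa [e]⟩, e,
    fun t ht => ?_, fun t ht => by simp [expNegInvGlue.zero_of_nonpos ht],
    fun t ht => mul_pos (Real.exp_pos _) (expNegInvGlue.pos_of_pos ht), fun t => ?_⟩
  · rw [intervalIntegral.integral_congr (g := fun _ => 0), intervalIntegral.integral_zero]
    intro u hu
    rw [uIcc_of_ge ht] at hu
    simp [expNegInvGlue.zero_of_nonpos hu.2]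
  · have h1 : HasDerivAt (fun u : ℝ => Real.exp (l * u)) (Real.exp (l * t) * (l * 1)) t :=
      ((hasDerivAt_id t).const_mul l).exp
    have h2 := (hG.differentiable (by simp) t).hasDerivAt
    rw [(h1.fun_mul h2).deriv]
    have h3 : 0 ≤ deriv expNegInvGlue t := expNegInvGlue.monotone.deriv_nonneg
    nlinarith [mul_nonneg (Real.exp_pos (l * t)).le h3]

theorem sm_d (y : E n) (r : ℝ) : Smooth fun x : E n => r ^ 2 - ‖x - y‖ ^ 2 :=
  contDiff_const.sub ((contDiff_id.sub contDiff_const).norm_sq ℝ)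

theorem pd_d (y : E n) (r : ℝ) (x : E n) (i : Fin n) :
    pd i (fun x : E n => r ^ 2 - ‖x - y‖ ^ 2) x = -(2 * (x - y) i) := by
  rw [pd_const_sub, pd_of_hasFDerivAt (f := fun x => ‖x - y‖ ^ 2)
    ((hasFDerivAt_id x).sub_const y).norm_sq]
  simp [EuclideanSpace.inner_single_right]

theorem ip_d {g : Field n} (hg : Met g) {y x : E n} (r : ℝ) (hx : x ≠ y) :
    0 < ip g (fun x : E n => r ^ 2 - ‖x - y‖ ^ 2) (fun x : E n => r ^ 2 - ‖x - y‖ ^ 2) x := by
  refine hg.up_pos x (ξ := fun i => pd i (fun x : E n => r ^ 2 - ‖x - y‖ ^ 2) x) fun e => hx ?_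
  refine sub_eq_zero.1 (PiLp.ext fun i => ?_)
  have := congrFun e i
  simp only [pd_d, Pi.zero_apply] at this
  show (x - y) i = 0
  linarith

end HopX

open HopX

theorem hop : HOP := by
  intro n g y k σ r hg h0 hr
  obtain ⟨d, hd⟩ : ∃ d, d = fun x : E n => r ^ 2 - ‖x - y‖ ^ 2 := ⟨_, rfl⟩
  have sd : Smooth d := hd ▸ sm_d y r
  have ne : ∀ x, σ ≤ ‖x - y‖ → x ≠ y := fun x hx e => by
    rw [e, sub_self, norm_zero] at hx
    linarith
  have i0 : ∀ x, σ ≤ ‖x - y‖ → 0 < ip g d d x := fun x hx => hd ▸ ip_d hg r (ne x hx)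
  have hK : IsCompact {x | σ ≤ ‖x - y‖ ∧ ‖x - y‖ ≤ r} :=
    (isCompact_closedBall y r).of_isClosed_subset
      ((isClosed_le continuous_const (continuous_id.sub continuous_const).norm).inter
        (isClosed_le (continuous_id.sub continuous_const).norm continuous_const))
      fun x hx => mem_closedBall_iff_norm.2 hx.2
  obtain ⟨M, hM⟩ := hK.bddAbove_image (f := fun x => (k * gn g d x - lap g d x) / ip g d d x)
    (((continuous_const.mul (Mc0.cont_gn hg sd)).sub (hg.sm_lap sd).cont).continuousOn.div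
      (hg.sm_ip sd sd).cont.continuousOn fun x hx => (i0 x hx.1).ne')
  obtain ⟨Ψ, ψ, hΨ, e, z0, p0, p1, p2⟩ := psi (l := M + 1)
  have key : ∀ x, lap g (fun x => Ψ (d x)) x - k * gn g (fun x => Ψ (d x)) x =
      ψ (d x) * lap g d x + deriv ψ (d x) * ip g d d x - k * (|ψ (d x)| * gn g d x) := fun x => by
    rw [hg.lap_comp (sd.c2 x) (hΨ.contDiffAt.of_le (by norm_cast)),
      gn_comp (hΨ.differentiable (by simp) _).hasDerivAt (sd.diff x), e]
  have neg : ∀ x, r ≤ ‖x - y‖ → d x ≤ 0 := fun x hx => by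
    rw [hd]
    exact sub_nonpos.2 (pow_le_pow_left₀ (by linarith) hx 2)
  have pos : ∀ x, σ ≤ ‖x - y‖ → ‖x - y‖ < r →
      0 < lap g (fun x => Ψ (d x)) x - k * gn g (fun x => Ψ (d x)) x := fun x hx hx' => by
    have h1 : 0 < ψ (d x) := p1 _ (by
      rw [hd]
      exact sub_pos.2 (pow_lt_pow_left₀ hx' (norm_nonneg _) two_ne_zero))
    have h2 := (div_le_iff₀ (i0 x hx)).1 (hM ⟨x, ⟨hx, hx'.le⟩, rfl⟩)
    have h3 := mul_le_mul_of_nonneg_right (p2 (d x)) (i0 x hx).le
    rw [key, abs_of_pos h1]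
    nlinarith [mul_le_mul_of_nonneg_left h2 h1.le, mul_pos h1 (i0 x hx)]
  refine ⟨fun x => Ψ (d x), hΨ.comp sd, fun x hx => z0 _ (neg x hx), fun x hx => ?_, pos⟩
  rcases lt_or_ge ‖x - y‖ r with h | h
  · exact (pos x hx h).le
  · have h1 := p2 (d x)
    rw [key]
    rw [p0 _ (neg x h)] at h1 ⊢
    simpa using mul_nonneg (by simpa using h1) (i0 x hx).le

theorem cok : COK := by
  rintro n g K F hg hK0 hF ⟨R, hR⟩ h
  have hc : ContinuousOn (thetaPlus g K F) {x | gn g F x ≠ 0} := by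
    have c0 := (Mc0.cont_gn hg hF).continuousOn (s := {x | gn g F x ≠ 0})
    have c1 : ∀ i, ContinuousOn (nrm g F i) {x | gn g F x ≠ 0} := fun i =>
      (hg.sm_gr hF i).cont.continuousOn.div c0 fun _ hx => hx
    have c2 : ∀ T : Field n, (∀ i j, Smooth fun x => T x i j) →
        ContinuousOn (trS g T F) {x | gn g F x ≠ 0} := fun T hT =>
      (continuous_finsetSum _ fun i _ => continuous_finsetSum _ fun j _ =>
        (hg.sm_up i j).cont.mul (hT i j).cont).continuousOn.sub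
        (continuousOn_finsetSum _ fun i _ => continuousOn_finsetSum _ fun j _ =>
          ((hT i j).cont.continuousOn.mul (c1 i)).mul (c1 j))
    exact ((c2 _ (hg.sm_hess hF)).div c0 fun _ hx => hx).add (c2 _ hK0.sm)
  have hK : IsCompact {x | |F x| ≤ 1 / 2} := (isCompact_closedBall (0 : E n) R).of_isClosed_subset
    (isClosed_le hF.cont.abs continuous_const) fun x hx => mem_closedBall_zero_iff.2
      (not_lt.1 fun k => by linarith [hR x k.le, (abs_le.1 (show |F x| ≤ 1 / 2 from hx)).2])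
  have hS : IsCompact {x | F x = 0} := hK.of_isClosed_subset (isClosed_eq hF.cont continuous_const)
    fun x hx => by simp [show F x = 0 from hx]
  obtain ⟨a, a0, ha⟩ := hS.exists_forall_le' (f := fun x => -thetaPlus g K F x) (a := 0)
    (hc.mono fun x hx => (h x hx).1).neg fun x hx => neg_pos.2 (h x hx).2
  have hW : IsOpen ({x | gn g F x ≠ 0} ∩ thetaPlus g K F ⁻¹' Iio (-(a / 2))) :=
    hc.isOpen_inter_preimage (isOpen_ne_fun (Mc0.cont_gn hg hF) continuous_const) isOpen_Iio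
  obtain ⟨s, s0, hs⟩ := (hK.diff hW).exists_forall_le' (f := fun x => |F x|) (a := 0)
    hF.cont.abs.continuousOn fun x hx => abs_pos.2 fun k =>
      hx.2 ⟨(h x k).1, show _ < -(a / 2) by linarith [ha x k]⟩
  refine ⟨min (s / 2) (1 / 2), by positivity, a / 2, by positivity, fun x hx => ?_⟩
  by_contra k
  have := hs x ⟨hx.trans (min_le_right _ _), fun k' => k ⟨k'.1, le_of_lt k'.2⟩⟩
  linarith [hx.trans (min_le_left _ _)]

end Vale.Agent.P366Y.A
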