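import Vale.Agent.P366Y.A.Defs
import Vale.Agent.P366Z.McA

/-!
# P366Y, block A: the tensor inside the boundary (row INN)
-/

open Metric Filter Topology Set
open scoped ContDiff
open Vale.Agent.P366.Stmt Vale.Agent.P366Z

noncomputable section

namespace Vale.Agent.P366Y.A

namespace InnX

variable {n : ℕ} {g K K' : Field n} {F : E n → ℝ} {C : Set (E n)} {x : E n}

theorem bd (hC : IsCompact C) {a : Fin n → Fin n → E n → ℝ} (ha : ∀ i j, Smooth (a i j)) :
    ∃ M ≥ (0 : ℝ), ∀ x ∈ C, ∀ i j, |a i j x| ≤ M := by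
  obtain ⟨M, hM⟩ := hC.exists_bound_of_continuousOn (f := fun x i j => a i j x)
    (continuous_pi fun i => continuous_pi fun j => (ha i j).cont).continuousOn
  exact ⟨|M|, abs_nonneg _, fun x hx i j => ((norm_le_pi_norm (fun j => a i j x) j).trans
    (norm_le_pi_norm (fun i j => a i j x) i)).trans ((hM x hx).trans (le_abs_self _))⟩

theorem dom (hC : IsCompact C) (hg : Met g) (hK : Sy K) : ∃ M ≥ (0 : ℝ), ∀ x ∈ C, ∀ ξ : Fin n → ℝ,
    ∑ i, ∑ j, K x i j * ξ i * ξ j ≤ M * ∑ i, ∑ j, g x i j * ξ i * ξ j := by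
  obtain ⟨M, p, h⟩ := bd hC hK.sm
  obtain ⟨M', p', h'⟩ := bd hC hg.sm_up
  refine ⟨n * M * (n * M'), by positivity, fun x hx ξ => (quad_le_of_bd (h x hx) ξ).trans ?_⟩
  rw [mul_assoc (n * M)]
  exact mul_le_mul_of_nonneg_left (lo_of_hi (by positivity) (hg.g_nonneg x ξ)
    (by rw [mul_comm]; exact hg.sq_le x ξ) (quad_le_of_bd (h' x hx) ξ) (by positivity))
    (by positivity)

theorem quad {c : ℝ} (h : ∀ i j, K' x i j = K x i j - c * g x i j) (ξ : Fin n → ℝ) :
    ∑ i, ∑ j, K' x i j * ξ i * ξ j =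
      ∑ i, ∑ j, K x i j * ξ i * ξ j - c * ∑ i, ∑ j, g x i j * ξ i * ξ j := by
  simp only [h, Finset.mul_sum, ← Finset.sum_sub_distrib]
  exact Finset.sum_congr rfl fun i _ => Finset.sum_congr rfl fun j _ => by ring

theorem theta (hg : Met g) (h0 : gn g F x ≠ 0) {c : ℝ}
    (h : ∀ i j, K' x i j = K x i j - c * g x i j) :
    thetaPlus g K' F x = thetaPlus g K F x - c * (n - 1) := by
  have h1 : tr g K' x = tr g K x - c * n := by
    rw [← McX.tr_g (x := x) hg]
    simp only [tr, h, Finset.mul_sum, ← Finset.sum_sub_distrib]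
    exact Finset.sum_congr rfl fun i _ => Finset.sum_congr rfl fun j _ => by ring
  have h2 : ∑ i, ∑ j, g x i j * nrm g F i x * nrm g F j x = 1 := by
    rw [← div_self (pow_ne_zero 2 h0), hg.gn_sq, ip_eq_gr, Finset.sum_div]
    refine Finset.sum_congr rfl fun i _ => ?_
    rw [← McX.g_gr hg, Finset.sum_mul, Finset.sum_div, ← ip_eq_gr, ← hg.gn_sq]
    refine Finset.sum_congr rfl fun j _ => ?_
    change g x i j * (gr g F i x / gn g F x) * (gr g F j x / gn g F x) = _
    ring
  simp only [thetaPlus, trS]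
  rw [h1, quad h, h2]
  ring

end InnX

open InnX

theorem inn : INN := by
  intro n g K F s h hn hg hK hF ⟨R, hR⟩ hs hθ
  have cpt : ∀ C : Set (E n), IsClosed C → (∀ x ∈ C, F x < 1) → IsCompact C := fun C h1 h2 =>
    (isCompact_closedBall 0 R).of_isClosed_subset h1 fun x hx =>
      mem_closedBall_zero_iff.2 (not_le.1 fun k => (h2 x hx).not_ge (hR x k)).le
  obtain ⟨M, M0, hM⟩ := dom (cpt {x | F x ≤ 0} (isClosed_le hF.cont continuous_const)
    fun x hx => lt_of_le_of_lt hx one_pos) hg hK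
  have ip0 : ∀ x ∈ F ⁻¹' Icc (-(s / 8)) (-(s / 16)), 0 < ip g F F x := fun x hx =>
    hg.gn_sq F x ▸ sq_pos_of_ne_zero (hθ x (abs_le.2 ⟨by linarith [hx.1], by linarith [hx.2]⟩)).1
  obtain ⟨B, hB⟩ := (cpt _ (isClosed_Icc.preimage hF.cont) fun x hx => by
      linarith [hx.2]).exists_bound_of_continuousOn
    (f := fun x => 16 * n * normSq g (hess g F) x / ip g F F x)
    ((continuous_const.mul (continuous_finsetSum _ fun i _ => continuous_finsetSum _ fun j _ =>
      continuous_finsetSum _ fun k _ => continuous_finsetSum _ fun l _ =>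
        (((hg.sm_up i k).cont.mul (hg.sm_up j l).cont).mul (hg.sm_hess hF i j).cont).mul
          (hg.sm_hess hF k l).cont)).continuousOn.div (hg.sm_ip hF hF).cont.continuousOn
      fun x hx => (ip0 x hx).ne')
  have B0 := abs_nonneg B
  have sχ : Smooth fun x => Real.smoothTransition (-32 * F x / s - 1) :=
    Real.smoothTransition.contDiff.comp (((contDiff_const.mul hF).div_const s).sub contDiff_const)
  refine ⟨fun x i j => K x i j - (M + (|B| + 1)) * Real.smoothTransition (-32 * F x / s - 1) *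
    g x i j, |B| + 1, ⟨fun i j => (hK.sm i j).sub ((contDiff_const.mul sχ).mul (hg.sm i j)),
      fun x i j => by rw [hK.sy x i j, hg.sy x i j]⟩, by linarith, fun x hx => ?_, fun x hx => ?_,
    fun x hx ξ => ?_, fun x h1 h2 => ?_⟩
  · filter_upwards [hF.cont.continuousAt.eventually (lt_mem_nhds (show -(s / 32) < F x by linarith))]
      with y hy
    funext i j
    rw [Real.smoothTransition.zero_of_nonpos (sub_nonpos.2 ((div_le_one hs).2 (by linarith))),
      mul_zero, zero_mul, sub_zero]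
  · rw [theta hg (hθ x hx).1 fun _ _ => rfl]
    exact (sub_le_self _ (mul_nonneg (mul_nonneg (by positivity) (Real.smoothTransition.nonneg _))
      (by linarith [nm2_pos hn]))).trans (hθ x hx).2
  · refine (quad (K := K) (g := g) (x := x) (K' := fun x i j => K x i j - (M + (|B| + 1)) *
      Real.smoothTransition (-32 * F x / s - 1) * g x i j) (fun _ _ => rfl) ξ).trans_le ?_
    rw [Real.smoothTransition.one_of_one_le
      (le_sub_iff_add_le.2 ((le_div_iff₀ hs).2 (by linarith)))]
    linarith [hM x (show F x ≤ 0 by linarith) ξ]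
  · exact (div_le_iff₀ (ip0 x ⟨h1, h2⟩)).1 (((le_abs_self _).trans (hB x ⟨h1, h2⟩)).trans
      ((le_abs_self B).trans (by nlinarith)))

end Vale.Agent.P366Y.A
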