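import Vale.Agent.P366Y.A.Defs

/-!
# P366Y, block A, row PPK: the function `p` of the dead core
-/

open MeasureTheory Metric Filter Topology Set
open scoped ContDiff ENNReal
open Vale.Agent.P366.Stmt Vale.Agent.P366Z Vale.Agent.P366Z.St0

noncomputable section

namespace Vale.Agent.P366Y.A

namespace PpkH

variable {n : ℕ} {q q' : ℝ}

theorem mg_pos (q' : ℝ) (x : E n) : 0 < mg q' x := Real.rpow_pos_of_pos (by positivity) _

theorem small (D : ℝ) {a ε : ℝ} (ha : 0 < a) (hε : 0 < ε) : ∀ᶠ s in atTop, D * s ^ (-a) ≤ ε :=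
  ((tendsto_rpow_neg_atTop ha).const_mul D).eventually (ge_mem_nhds (by simpa using hε))

theorem tail (h0 : 0 < q') (hq : n + q' < 2 + 2 * q) (D R : ℝ) {c : ℝ} (hc : 0 < c) :
    ∃ r ≥ R, ∀ x : E n, r ≤ ‖x‖ → D * (‖x‖ ^ (-(q + 1))) ^ 2 ≤ c * mg q' x := by
  obtain ⟨r, hr⟩ := eventually_atTop.1 ((small D (a := 2 + 2 * q - (n + q')) (by linarith)
    (ε := c * 2 ^ (-(n + q'))) (by positivity)).and (eventually_ge_atTop 1))
  refine ⟨max r R, le_max_right _ _, fun x hx => ?_⟩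
  obtain ⟨h1, h2⟩ := hr _ ((le_max_left _ _).trans hx)
  have h3 : 0 < ‖x‖ := one_pos.trans_le h2
  have h4 : (2 * ‖x‖) ^ (-(n + q')) ≤ mg q' x :=
    Real.rpow_le_rpow_of_nonpos (by positivity) (by linarith) (neg_nonpos.2 (by positivity))
  rw [Real.mul_rpow zero_le_two h3.le] at h4
  rw [sq, ← Real.rpow_add h3, show -(q + 1) + -(q + 1) = -(2 + 2 * q - (n + q')) + -(n + q') by
    ring, Real.rpow_add h3, ← mul_assoc]
  refine (mul_le_mul_of_nonneg_right h1 (by positivity)).trans ?_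
  rw [mul_assoc]
  exact mul_le_mul_of_nonneg_left h4 hc.le

theorem gn_cut {g : P366.Stmt.Field n} (hg : Met g) (q' : ℝ) {r : ℝ} (hr : 0 < r) :
    ∃ M, ∀ x, gn g (cut r) x ≤ M * mg q' x := by
  have h1 : Continuous fun x => gn g (cut r) x / mg q' x :=
    (hg.sm_ip (sm_cut r) (sm_cut r)).cont.sqrt.div
      ((continuous_const.add continuous_norm).rpow_const fun x =>
        .inl (add_pos_of_pos_of_nonneg one_pos (norm_nonneg x)).ne')
      fun x => (mg_pos q' x).ne'
  obtain ⟨M, hM⟩ := (isCompact_closedBall (0 : E n) (2 * r)).exists_bound_of_continuousOn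
    h1.continuousOn
  refine ⟨max M 0, fun x => ?_⟩
  rcases le_or_gt ‖x‖ (2 * r) with h | h
  · exact (div_le_iff₀ (mg_pos q' x)).1 (((le_abs_self _).trans
      (hM x (mem_closedBall_zero_iff.2 h))).trans (le_max_left _ _))
  · rw [gn_zero (pd_cut_out hr h)]
    exact mul_nonneg (le_max_right _ _) (mg_pos q' x).le

end PpkH

open PpkH in
/-- **row PPK** -/
theorem ppk : PPK := by
  intro n g K F q C R m q' h h0 hq A hA c hc r₀
  have q0 : 0 < q + 1 := by
    have : (3 : ℝ) ≤ n := by exact_mod_cast h.dim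
    linarith [h.q0]
  have C0 := h.C0
  obtain ⟨r₁, k1, k2⟩ := tail h0 hq ((2 + A * 2 ^ (q + 1)) * C ^ 2) R (half_pos hc)
  have r1 : 0 < r₁ := by linarith [h.R1]
  obtain ⟨M, hM⟩ := gn_cut h.met q' r1
  obtain ⟨r, k3, k4, k5⟩ := ((eventually_ge_atTop r₀).and ((eventually_ge_atTop (4 * r₁)).and
    (small (A * C * M) q0 (half_pos hc)))).exists
  have r0 : 0 < r := by linarith
  have p0 : 0 < A * C * r ^ (-(q + 1)) := by positivity
  have a2 : 0 < A * 2 ^ (q + 1) := by positivity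
  refine ⟨r, k3, A * C * r ^ (-(q + 1)), fun x => A * C * r ^ (-(q + 1)) * (1 - cut r₁ x),
    ⟨p0, contDiff_const.mul (contDiff_const.sub (sm_cut r₁)), fun x =>
      ⟨mul_nonneg p0.le (sub_nonneg.2 (cut_le_one _ x)),
        mul_le_of_le_one_right p0.le (sub_le_self _ (cut_nonneg _ x))⟩, fun x hx => ?_,
      fun x hx => ?_, fun x hx => ?_⟩, fun x hx => ?_, fun x hx => ?_⟩
  · rw [cut_zero r1 (by linarith), sub_zero, mul_one]
  · rw [cut_one ((not_le.1 fun k => (h.far x k).not_gt hx).le.trans k1), sub_self, mul_zero]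
  · rw [mul_assoc]
    exact mul_le_mul_of_nonneg_left ((h.dk x (by linarith)).1.trans (mul_le_mul_of_nonneg_left
      (Real.rpow_le_rpow_of_nonpos r0 hx (by linarith)) C0.le)) hA.le
  · have m0 := mg_pos q' x
    have e1 : gn g (fun x => A * C * r ^ (-(q + 1)) * (1 - cut r₁ x)) x ≤ c / 2 * mg q' x := by
      rw [gn_of_pd (u' := cut r₁) (s := -(A * C * r ^ (-(q + 1)))) fun i => by
        rw [pd_const_mul, pd_const_sub, mul_neg, neg_mul], abs_neg, abs_of_pos p0]
      refine (mul_le_mul_of_nonneg_left (hM x) p0.le).trans ?_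
      rw [← mul_assoc, mul_right_comm (A * C)]
      exact mul_le_mul_of_nonneg_right k5 m0.le
    have e2 : A * C * r ^ (-(q + 1)) * (1 - cut r₁ x) * |tr g K x| ≤ c / 2 * mg q' x := by
      rcases le_total ‖x‖ r₁ with k | k
      · rw [cut_one k, sub_self, mul_zero, zero_mul]
        positivity
      have x0 : 0 < ‖x‖ := r1.trans_le k
      have e3 : r ^ (-(q + 1)) ≤ 2 ^ (q + 1) * ‖x‖ ^ (-(q + 1)) := by
        refine (Real.rpow_le_rpow_of_nonpos (half_pos x0) (by linarith) (by linarith)).trans_eq ?_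
        rw [Real.div_rpow x0.le zero_le_two, Real.rpow_neg zero_le_two, div_inv_eq_mul, mul_comm]
      refine le_trans ?_ (k2 x k)
      calc _ ≤ A * C * (2 ^ (q + 1) * ‖x‖ ^ (-(q + 1))) * 1 * (C * ‖x‖ ^ (-(q + 1))) := by
            gcongr
            · exact sub_nonneg.2 (cut_le_one _ x)
            · exact sub_le_self _ (cut_nonneg _ x)
            · exact (h.dk x (k1.trans k)).2
        _ = A * 2 ^ (q + 1) * C ^ 2 * (‖x‖ ^ (-(q + 1))) ^ 2 := by ring
        _ ≤ _ := by gcongr; linarith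
    linarith
  · obtain ⟨e1, e2⟩ := h.dk x (by linarith)
    have e3 := pow_le_pow_left₀ (Real.sqrt_nonneg _) e1 2
    have e4 := pow_le_pow_left₀ (abs_nonneg _) e2 2
    have e5 := k2 x (by linarith)
    have e6 : 0 ≤ A * 2 ^ (q + 1) * C ^ 2 * (‖x‖ ^ (-(q + 1))) ^ 2 := by positivity
    have e7 := mul_pos hc (mg_pos q' x)
    rw [Real.sq_sqrt'] at e3
    rw [sq_abs] at e4
    nlinarith [le_max_left (normSq g K x) 0]

end Vale.Agent.P366Y.A
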