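import Vale.Agent.P366Y.A.Defs
import Vale.Agent.P366Z.St0.Asm1

/-!
# P366Y, block A, row PRE: the conformal factor
-/

open MeasureTheory Metric Filter Topology Set
open scoped ContDiff ENNReal
open Vale.Agent.P366.Stmt Vale.Agent.P366Z Vale.Agent.P366Z.St0 Vale.Agent.P366Z.St0.Asm

noncomputable section

namespace Vale.Agent.P366Y.A

namespace PreH

variable {n : ℕ} {g K : Field n} {F : E n → ℝ}

theorem gn_le {u : E n → ℝ} {x : E n} {e : ℝ} (hu : Smooth u) (he : ‖fderiv ℝ u x‖ ≤ e) :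
    gn g u x ≤ √(∑ i, ∑ j, |up g i j x|) * e := by
  have e0 : 0 ≤ e := (norm_nonneg _).trans he
  have h1 : ∀ i, |pd i u x| ≤ e := fun i => (abs_pd_le (hu.diff x) i).trans he
  rw [← Real.sqrt_sq e0, ← Real.sqrt_mul (by positivity)]
  refine Real.sqrt_le_sqrt ?_
  simp only [ip, Finset.sum_mul]
  refine Finset.sum_le_sum fun i _ => Finset.sum_le_sum fun j _ => (le_abs_self _).trans ?_
  rw [abs_mul, abs_mul, mul_assoc, sq]
  exact mul_le_mul_of_nonneg_left (mul_le_mul (h1 i) (h1 j) (abs_nonneg _) e0) (abs_nonneg _)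

theorem bound (hg : Met g) (hK : Sy K) (hF : Smooth F) (r : ℝ) : ∃ M > (0 : ℝ), ∀ x : E n,
    ‖x‖ ≤ r → √(normSq g K x) ≤ M ∧ gn g F x ≤ M ∧ ∀ (u : E n → ℝ) (e : ℝ), Smooth u →
      ‖fderiv ℝ u x‖ ≤ e → gn g u x ≤ M * e := by
  have c1 : Continuous fun x => √(∑ i, ∑ j, |up g i j x|) :=
    (continuous_finsetSum _ fun i _ => continuous_finsetSum _ fun j _ =>
      (hg.sm_up i j).cont.abs).sqrt
  have c2 : Continuous fun x => √(normSq g K x) :=
    (continuous_finsetSum _ fun i _ => continuous_finsetSum _ fun j _ =>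
      continuous_finsetSum _ fun k _ => continuous_finsetSum _ fun l _ =>
        (((hg.sm_up i k).cont.mul (hg.sm_up j l).cont).mul (hK.sm i j).cont).mul
          (hK.sm k l).cont).sqrt
  have c3 : Continuous (gn g F) := (hg.sm_ip hF hF).cont.sqrt
  obtain ⟨M, hM⟩ := (isCompact_closedBall (0 : E n) r).exists_bound_of_continuousOn
    ((c1.add c2).add c3).continuousOn
  refine ⟨|M| + 1, by positivity, fun x hx => ?_⟩
  have h1 : √(∑ i, ∑ j, |up g i j x|) + √(normSq g K x) + gn g F x ≤ |M| :=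
    ((le_abs_self _).trans (hM x (by simpa using hx))).trans (le_abs_self M)
  have h2 := Real.sqrt_nonneg (∑ i, ∑ j, |up g i j x|)
  have h3 := Real.sqrt_nonneg (normSq g K x)
  have h4 := gn_nonneg g F x
  exact ⟨by linarith, by linarith, fun u e hu he => (gn_le hu he).trans
    (mul_le_mul_of_nonneg_right (by linarith) ((norm_nonneg _).trans he))⟩

theorem fd_lin {u w : E n → ℝ} (hu : Smooth u) (hw : Smooth w) {d : ℝ} (hd : 0 ≤ d) (x : E n) :
    ‖fderiv ℝ (fun y => 1 * u y + d * w y) x‖ ≤ ‖fderiv ℝ u x‖ + d * ‖fderiv ℝ w x‖ := by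
  simp only [one_mul]
  rw [fderiv_fun_add (hu.diff x) ((hw.diff x).const_mul d), fderiv_const_mul (hw.diff x)]
  refine (norm_add_le _ _).trans_eq ?_
  rw [norm_smul, Real.norm_of_nonneg hd]

theorem gn_lin (hg : Met g) {u w : E n → ℝ} (hu : Smooth u) (hw : Smooth w) {d : ℝ} (hd : 0 ≤ d)
    (x : E n) : gn g (fun y => 1 * u y + d * w y) x ≤ gn g u x + d * gn g w x := by
  refine (hg.gn_add_le (u₁ := u) (u₂ := fun y => d * w y) fun i => ?_).trans_eq ?_
  · rw [pd_lin hu hw, one_mul, pd_const_mul]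
  · rw [gn_of_pd (u := fun y => d * w y) (u' := w) (s := d) fun i => pd_const_mul _ _,
      abs_of_nonneg hd]

end PreH

open PreH in
theorem pre_of (hW : WK) (hP : PPK) (hU : USK) (hE : FEK) (hM : CUTM) (hA : ASY) : PRE := by
  intro n g K F q C R m hB η hη A hA0 r₀
  have hn : (3 : ℝ) ≤ n := by exact_mod_cast hB.dim
  have hq := hB.q0
  have R0 : 0 < R := by linarith [hB.R1]
  obtain ⟨q', q1, q2, q3⟩ : ∃ q' > (0 : ℝ), q' < q ∧ n + q' < 2 + 2 * q :=
    ⟨min (q / 2) ((2 * q + 2 - n) / 2), lt_min (by linarith) (by linarith),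
      (min_le_left _ _).trans_lt (by linarith),
      by linarith [min_le_right (q / 2) ((2 * q + 2 - n) / 2)]⟩
  obtain ⟨L, L0, c, c0, ρW, hw⟩ := hW n g K F q C R m q' hB q1 q2
  obtain ⟨d, d0, d1⟩ : ∃ d > (0 : ℝ), d * L = η / 8 :=
    ⟨η / 8 / L, by positivity, div_mul_cancel₀ _ L0.ne'⟩
  obtain ⟨r, r1, p0, p, hp, p1, p2⟩ := hP n g K F q C R m q' hB q1 q3 A hA0 (d * c / 16)
    (by positivity) (max r₀ R)
  have r2 : R ≤ r := (le_max_right _ _).trans r1
  have r3 : 1 ≤ r := hB.R1.trans r2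
  obtain ⟨M, M0, hM'⟩ := bound hB.met hB.sy hB.ext.1 (2 * r)
  obtain ⟨C', -, hc⟩ := hM n q C hB.C0
  obtain ⟨KE, -, ρE, hf⟩ := hE n g q C R m hB.toB0
  have m0 : ∀ x : E n, 0 < mg q' x := fun x => Real.rpow_pos_of_pos (by positivity) _
  obtain ⟨μ, μ0, μ1, μ2⟩ : ∃ μ > (0 : ℝ), μ ≤ 1 ∧ ∀ x : E n, ‖x‖ ≤ 2 * r → μ ≤ mg q' x :=
    ⟨(1 + 2 * r) ^ (-(n + q')), Real.rpow_pos_of_pos (by positivity) _,
      Real.rpow_le_one_of_one_le_of_nonpos (by linarith) (by linarith), fun x hx =>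
        Real.rpow_le_rpow_of_nonpos (by positivity) (by linarith) (by linarith)⟩
  obtain ⟨e, e0, e1, e2⟩ : ∃ e > (0 : ℝ), 2 * r * e ≤ η / 2 ∧ M * (M * e) ≤ d * c * μ / 4 := by
    refine ⟨min (η / 2 / (2 * r)) (d * c * μ / 4 / (M * M)), by positivity, ?_, ?_⟩
    · rw [mul_comm]
      exact (le_div_iff₀ (by positivity)).1 (min_le_left _ _)
    · rw [← mul_assoc, mul_comm]
      exact (le_div_iff₀ (by positivity)).1 (min_le_right _ _)
  have e3 : e ≤ η / 4 := by nlinarith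
  obtain ⟨ρU, hu⟩ := hU n g q C R m hB.toB0 (2 * r) e e0
  refine ⟨r, (le_max_left _ _).trans r1, p0, p, hp, max (2 * r + 1) (max ρE (max ρW ρU)),
    fun ρ hρ => ?_⟩
  obtain ⟨s1, s2⟩ := max_le_iff.1 hρ
  obtain ⟨s2, s3⟩ := max_le_iff.1 s2
  obtain ⟨s3, s4⟩ := max_le_iff.1 s3
  obtain ⟨w, βw, w1, w2, w3, w4, w5, w6, w7, w8, w9, w10⟩ := hw ρ s3
  obtain ⟨u, βu, u1, u2, u3, u4, u5, u6⟩ := hu ρ s4
  obtain ⟨g1, -, -, -, g5⟩ := hc g R ρ hB.met hB.af R0 (by linarith)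
  have hγ := one_lt_gam hB.dim
  have dc : 0 < d * c := mul_pos d0 c0
  have lu : ∀ x, ‖x‖ ≤ ρ ∨ 2 * ρ ≤ ‖x‖ → lap (gc g ρ) u x = 0 := fun x hx => by
    have h := u4 x
    rw [((hf ρ s2).2 x).1 hx, zero_mul] at h
    exact (mul_eq_zero.1 h).resolve_left (by positivity)
  refine ⟨fun x => 1 * u x + d * w x, 1 * βu + d * βw, sm_lin u1 w1 _ _, fun x => ?_,
    fun x hx => ?_, fun x hx hx' => ?_, fun x hx hx' => ?_, fun x hx => ?_, fun x hx => ?_,
    fun x hx => ?_, ?_, ?_⟩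
  · have h1 := abs_le.1 (u2 x)
    have h2 : |d * w x| ≤ d * L := by
      rw [abs_mul, abs_of_pos d0]; exact mul_le_mul_of_nonneg_left (w2 x) d0.le
    have h3 := abs_le.1 h2
    exact abs_le.2 ⟨by linarith [h1.1, h3.1], by linarith [h1.2, h3.2]⟩
  · have h1 := mul_le_mul_of_nonneg_left (fd_lin u1 w1 d0.le x) (norm_nonneg x)
    have h2 := mul_le_mul hx (u3 x hx) (norm_nonneg _) (by linarith)
    have h3 := mul_le_mul_of_nonneg_left (w3 x) d0.le
    linarith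
  · obtain ⟨b1, -, b3⟩ := hM' x hx'
    have h1 : lap g u x = 0 := (lap_of_ev (g5 x (by linarith)) u).symm.trans
      (lu x (Or.inl (by linarith)))
    have h2 := mul_le_mul_of_nonneg_left (gn_lin hB.met u1 w1 d0.le x)
      (Real.sqrt_nonneg (normSq g K x))
    have h3 := mul_le_mul b1 (b3 u e u1 (u3 x hx')) (gn_nonneg _ _ _) M0.le
    have h4 := mul_le_mul_of_nonneg_left (w4 x hx (by linarith)) d0.le
    have h5 := p1 x hx'
    have h6 := mul_le_mul_of_nonneg_left (μ2 x hx') dc.le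
    have h7 := mul_pos dc (m0 x)
    rw [hB.met.lap_lin (u1.c2 x) (w1.c2 x), h1]
    linarith
  · have h1 := mul_le_mul_of_nonneg_left (w5 x (r2.trans hx) hx') d0.le
    have h2 := p2 x hx
    have h3 := u4 x
    have h7 := mul_pos dc (m0 x)
    rw [g1.lap_lin (u1.c2 x) (w1.c2 x)]
    linarith
  · rw [g1.lap_lin (u1.c2 x) (w1.c2 x), lu x (Or.inr hx)]
    linarith [mul_nonneg d0.le (neg_nonneg.2 (w6 x hx))]
  · rw [g1.lap_lin (u1.c2 x) (w1.c2 x), lu x (Or.inr (by linarith)), w7 x hx]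
    ring
  · have hx' : ‖x‖ ≤ 2 * r := by
      by_contra h
      linarith [hB.far x (by linarith)]
    obtain ⟨-, b2, b3⟩ := hM' x hx'
    have h1 := (le_abs_self _).trans (hB.met.abs_ip_le u F x)
    have h2 := mul_le_mul (b3 u e u1 (u3 x hx')) b2 (gn_nonneg _ _ _) (by positivity)
    have h3 := mul_le_mul_of_nonneg_left (w8 x hx) d0.le
    have h4 := mul_le_mul_of_nonneg_left μ1 dc.le
    rw [ip_lin u1 w1]
    linarith
  · have := (hA n u w 1 0 βu βw hB.dim u1 w1 u5).2.2.1 1 d w9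
    simpa only [mul_zero, add_zero, mul_one] using this
  · have := mul_le_mul_of_nonneg_left w10 d0.le
    linarith

end Vale.Agent.P366Y.A
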