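import Vale.Agent.P366Y.A.Defs
import Vale.Agent.P366Z.St0.All

/-!
# P366Y, block A, rows FEK and USK: the correction of the scalar curvature
-/

open MeasureTheory Metric Filter Topology Set
open scoped ContDiff ENNReal
open Vale.Agent.P366.Stmt Vale.Agent.P366Z Vale.Agent.P366Z.St0

noncomputable section

namespace Vale.Agent.P366Y.A

namespace UskH

/-- the integral of the error -/
def MASK : Prop := ∀ (n : ℕ) (g : Field n) q C R m, B0 g q C R m →
  Tendsto (fun ρ => ∫ x, fe g ρ x) atTop (𝓝 (-(2 * (n - 1) * omega n * m)))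

/-- the correction of the scalar curvature -/
def USK1 : Prop := ∀ (n : ℕ) (g : Field n) q C R m, B0 g q C R m → ∀ R' : ℝ, ∃ K > (0 : ℝ),
  ∃ ρ₀ : ℝ, ∀ ρ ≥ ρ₀, ∃ u, Smooth u ∧ (∀ x, |u x - 1| ≤ K * ρ ^ (-q)) ∧
    (∀ x, ‖x‖ ≤ R' → ‖fderiv ℝ u x‖ ≤ K * ρ ^ (-q)) ∧ Tendsto u (cocompact (E n)) (𝓝 1) ∧
    ∀ x, 4 * gam n * lap (gc g ρ) u x = fe g ρ x * u x

open Cutm in
theorem fek_of (hS : SCL) (hC : CUTM) : FEK := by
  intro n g q C R m h
  have hn : (3 : ℝ) ≤ n := by exact_mod_cast h.dim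
  have hq : 0 < q := by linarith [h.q0]
  have hR : 0 < R := one_pos.trans_le h.R1
  obtain ⟨C', hC', h1⟩ := hC n q C h.C0
  obtain ⟨K, hK, ρ₁, k1⟩ := scal_bd hS n hq h.C0
  obtain ⟨K', hK', ρ₂, k2⟩ := scal_bd hS n hq hC'
  refine ⟨K' + K, by positivity, max R (max ρ₁ ρ₂), fun ρ hρ => ?_⟩
  simp only [ge_iff_le, max_le_iff] at hρ
  have h0 : 0 < ρ := hR.trans_le hρ.1
  obtain ⟨m1, m2, m3, -, m4⟩ := h1 g R ρ h.met h.af hR hρ.1
  have s : Smooth (fe g ρ) := ContDiff.sub m1.sm_scal (ContDiff.mul (sm_cut ρ) h.met.sm_scal)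
  have z1 : ∀ x : E n, ‖x‖ ≤ ρ → fe g ρ x = 0 := fun x hx => by
    have e : EqOn (fe g ρ) (fun _ => 0) (ball 0 ρ) := fun y hy => by
      rw [mem_ball_zero_iff] at hy
      simp only [fe, scal_of_ev (m4 y hy), cut_one hy.le, one_mul, sub_self]
    refine e.closure s.cont continuous_const ?_
    rwa [closure_ball _ h0.ne', mem_closedBall_zero_iff]
  have z2 : ∀ x : E n, ρ ≤ ‖x‖ → |fe g ρ x| ≤ (K' + K) * ‖x‖ ^ (-(q + 2)) := fun x hx => by
    have c0 : |cut ρ x| ≤ 1 := abs_le.2 ⟨by linarith [cut_nonneg ρ x], cut_le_one ρ x⟩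
    refine (abs_sub _ _).trans ?_
    linarith [mulb c0 (k1 g R x h.met h.af (hρ.1.trans hx) (hρ.2.1.trans hx)),
      k2 _ R x m1 m3 (hρ.1.trans hx) (hρ.2.2.trans hx)]
  refine ⟨s, fun x => ⟨fun hx => hx.elim (z1 x) fun hx => ?_, ?_, z2 x⟩⟩
  · simp only [fe, m2.scal_eq' (by linarith [h.dim]) m1 hx, cut_zero h0 hx, zero_mul, sub_self]
  · rcases le_total ‖x‖ ρ with hx | hx
    · rw [z1 x hx, abs_zero]
      positivity
    · exact (z2 x hx).trans (mul_le_mul_of_nonneg_left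
        (Real.rpow_le_rpow_of_nonpos h0 hx (by linarith)) (by positivity))

open Mass in
theorem mask_of (h1 : MAS1) (hS : SCL) (hC : CUTM) : MASK := by
  intro n g q C R m B
  have hn : (3 : ℝ) ≤ n := by exact_mod_cast B.dim
  have hq : 0 < q := by linarith [B.q0]
  have hn0 : 0 < n := by have := B.dim; omega
  obtain ⟨C', hC', hc⟩ := hC n q C B.C0
  obtain ⟨e, he, K, hK, hb⟩ := rem_bd hS n
  have hsm : ∀ c : ℝ, ∀ᶠ ρ : ℝ in atTop, c * ρ ^ (-q) ≤ e := fun c => by
    have := (tendsto_rpow_neg_atTop hq).const_mul c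
    rw [mul_zero] at this
    exact this.eventually (eventually_le_nhds he)
  have hE : Tendsto (fun ρ => ∫ x, (rem (gc g ρ) x - cut ρ x * rem g x)) atTop (𝓝 0) := by
    have hl := (tendsto_rpow_neg_atTop (y := 2 * q + 2 - n) (by linarith [B.q0])).const_mul
      ((K * (2 * C' ^ 2) + K * (2 * C ^ 2)) * (omega n / n * 3 ^ n))
    rw [mul_zero] at hl
    refine squeeze_zero_norm' ?_ hl
    filter_upwards [hsm C, hsm C', eventually_ge_atTop R] with ρ s1 s2 hR
    have h0 : 0 < ρ := by linarith [B.R1]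
    obtain ⟨k1, k2, k3, -, k5⟩ := hc g R ρ B.met B.af (by linarith [B.R1]) hR
    rw [← setIntegral_eq_integral_of_forall_compl_eq_zero (s := ball 0 (3 * ρ)) fun x hx => by
      have hx' : 3 * ρ ≤ ‖x‖ := not_lt.1 (mem_ball_zero_iff.not.1 hx)
      rw [rem_of_ev (k2.ev (by linarith)), rem_eu, cut_zero h0 (by linarith), zero_mul, sub_zero]]
    refine (norm_setIntegral_le_of_norm_le_const measure_ball_lt_top
      (C := (K * (2 * C' ^ 2) + K * (2 * C ^ 2)) * ρ ^ (-(2 * q + 2))) fun x _ => ?_).trans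
      (le_of_eq ?_)
    · rcases lt_or_ge ‖x‖ ρ with hx | hx
      · rw [rem_of_ev (k5 x hx), cut_one hx.le, one_mul, sub_self, norm_zero]
        positivity
      · have a1 := hb _ q C' R ρ x k1 k3 hq hC' hR h0 hx s2
        have a2 := hb _ q C R ρ x B.met B.af hq B.C0 hR h0 hx s1
        have a3 : |cut ρ x * rem g x| ≤ |rem g x| := by
          rw [abs_mul, abs_of_nonneg (cut_nonneg ρ x)]
          exact mul_le_of_le_one_left (abs_nonneg _) (cut_le_one ρ x)
        rw [Real.norm_eq_abs, add_mul]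
        exact (abs_sub _ _).trans (add_le_add a1 (a3.trans a2))
    · have e1 : ρ ^ (-(2 * q + 2 - n)) = ρ ^ (-(2 * q + 2)) * ρ ^ n := by
        rw [← Real.rpow_natCast, ← Real.rpow_add h0]
        congr 1
        ring
      rw [measureReal_def, real_ball hn0 _ (by positivity), e1, mul_pow]
      ring
  have hM := (h1 n (yv g) m B.dim (sm_yv B.met) B.en).add hE
  rw [add_zero] at hM
  refine hM.congr' ?_
  filter_upwards [eventually_ge_atTop R] with ρ hR
  have h0 : 0 < ρ := by linarith [B.R1]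
  obtain ⟨k1, k2, -⟩ := hc g R ρ B.met B.af (by linarith [B.R1]) hR
  obtain ⟨i1, i2⟩ := int_dY k1 k2
  have i3 : Integrable fun x => cut ρ x * dY g x :=
    integrable_of_out ((sm_cut ρ).cont.mul (sm_dY B.met).cont) (R := 2 * ρ) fun y hy => by
      rw [cut_zero h0 hy, zero_mul]
  have i4 : Integrable fun x => rem (gc g ρ) x - cut ρ x * rem g x :=
    integrable_of_out ((sm_rem k1).cont.sub ((sm_cut ρ).cont.mul (sm_rem B.met).cont))
      (R := 3 * ρ) fun y hy => by
        rw [rem_of_ev (k2.ev (by linarith)), rem_eu, cut_zero h0 (by linarith), zero_mul, sub_zero]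
  have e1 : (fun x => fe g ρ x) = fun x => (dY (gc g ρ) x - cut ρ x * dY g x) +
      (rem (gc g ρ) x - cut ρ x * rem g x) := funext fun x => by
    simp only [fe, rem]
    ring
  have i5 : Integrable fun x => dY (gc g ρ) x - cut ρ x * dY g x := i1.sub i3
  rw [e1, integral_add i5 i4, integral_sub i1 i3, i2, int_cut B.met h0, zero_sub, neg_neg]

open Uso1 in
theorem usk1_of (hS : SUB) (hB : BAR) (hC : CUTM) (hF : FEK) (hG : GRAD) : USK1 := by
  intro n g q C R m h R'
  have hn : (3 : ℝ) ≤ n := by exact_mod_cast h.dim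
  have hq : 0 < q := by linarith [h.q0]
  have hR : 0 < R := by linarith [h.R1]
  have hγ := one_lt_gam h.dim
  obtain ⟨C', hC', hc⟩ := hC n q C h.C0
  obtain ⟨c, hc0, K, hK, R₀, hR₀, hb⟩ := hB n q C' h.dim hq hC'
  obtain ⟨Kf, hKf, ρf, hf⟩ := hF n g q C R m h
  obtain ⟨m1, f1, -, -, e1⟩ := hc g R (max R (|R'| + 1)) h.met h.af hR (le_max_left _ _)
  obtain ⟨Cg, hg⟩ := hG n _ _ _ h.dim m1 f1 (wt1 _)
  set K₂ := 2 * Kf * 2 ^ (n + q) / c with hK₂
  have k2 : 0 < K₂ := by positivity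
  have t0 := (tendsto_rpow_neg_atTop hq).const_mul (K₂ * K)
  rw [mul_zero] at t0
  obtain ⟨ρ₀, h0⟩ := eventually_atTop.1 ((t0.eventually (gt_mem_nhds one_pos)).and
    ((eventually_ge_atTop (2 * R)).and ((eventually_ge_atTop R₀).and
      ((eventually_ge_atTop ρf).and (eventually_ge_atTop (|R'| + 1))))))
  refine ⟨K₂ * K * (1 + |Cg|), by positivity, ρ₀, fun ρ hρ => ?_⟩
  obtain ⟨a1, a2, a3, a4, a5⟩ := h0 ρ hρ
  have r0 : 0 < ρ := by linarith
  obtain ⟨m2, f2, af, -, e2⟩ := hc g R ρ h.met h.af hR (by linarith)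
  obtain ⟨b, β, B⟩ := hb _ R ρ ρ m2 af a2 a3 le_rfl f2
  obtain ⟨sf, bf⟩ := hf ρ a4
  set ε := K₂ * ρ ^ (n - 2 - q) with hε
  have e0 : 0 < ε := by positivity
  set M := K₂ * K * ρ ^ (-q) with hM
  have M0 : 0 < M := by positivity
  have eb : ∀ x, 0 ≤ ε * b x ∧ ε * b x ≤ M := fun x => by
    refine ⟨mul_nonneg e0.le (B.bd x).1, (mul_le_mul_of_nonneg_left ((B.bd x).2.trans B.top)
      e0.le).trans (le_of_eq ?_)⟩
    rw [hM, hε, show -q = n - 2 - q + (2 - n) by ring, Real.rpow_add r0]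
    ring
  have key : ∀ x, ε * lap (gc g ρ) b x ≤ -(2 * |fe g ρ x / (4 * gam n)|) := fun x => by
    by_cases hx : ‖x‖ ≤ ρ ∨ 2 * ρ ≤ ‖x‖
    · rw [(bf x).1 hx, zero_div, abs_zero, mul_zero, neg_zero]
      exact mul_nonpos_of_nonneg_of_nonpos e0.le (B.sup x)
    · rw [not_or, not_le, not_le] at hx
      have k1 := mul_le_mul_of_nonneg_left (B.str x hx.1.le hx.2.le) e0.le
      have k3 := pw (n := n) r0 hx.1.le hx.2.le hq hc0 (L := 2 * Kf) (by positivity)
      have k4 : |fe g ρ x / (4 * gam n)| ≤ |fe g ρ x| := by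
        rw [abs_div, abs_of_pos (a := 4 * gam n) (by linarith)]
        exact div_le_self (abs_nonneg _) (by linarith)
      rw [← hK₂, ← hε] at k3
      linarith [(bf x).2.1]
  have ab : ∀ (x) (t : ℝ), |t| ≤ 2 → |fe g ρ x / (4 * gam n) * t| ≤ 2 * |fe g ρ x / (4 * gam n)| :=
    fun x t ht => by
      rw [abs_mul, mul_comm]
      exact mul_le_mul_of_nonneg_right ht (abs_nonneg _)
  have sv : Smooth fun x => fe g ρ x / (4 * gam n) := ContDiff.div_const sf _
  obtain ⟨u, su, bu, eu⟩ := hS n (gc g ρ) (2 * ρ) (fun _ => 1) (fun x => fe g ρ x / (4 * gam n))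
    (fun y => -ε * b y + 1) (fun y => ε * b y + 1) h.dim m2 f2 (wt1 _) sv
    (bl_out sv (R := 2 * ρ) fun y hy => by rw [(bf y).1 (Or.inr hy.le), zero_div])
    ((contDiff_const.mul B.sm).add contDiff_const) ((contDiff_const.mul B.sm).add contDiff_const)
    (bl_aff B.lip _) (bl_aff B.lip _) (fun x => by linarith [(eb x).1])
    (fun x => by
      rw [wl_one, lap_affine, one_pow, one_mul]
      have := ab x (-ε * b x + 1) (abs_le.2 ⟨by linarith [(eb x).2], by linarith [(eb x).1]⟩)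
      linarith [key x, (abs_le.1 this).2])
    (fun x => by
      rw [wl_one, lap_affine, one_pow, one_mul]
      have := ab x (ε * b x + 1) (abs_le.2 ⟨by linarith [(eb x).1], by linarith [(eb x).2]⟩)
      linarith [key x, (abs_le.1 this).1])
  simp only [wl_one, one_pow, one_mul] at eu
  have ub : ∀ x, |u x - 1| ≤ ε * b x := fun x =>
    abs_le.2 ⟨by linarith [(bu x).1], by linarith [(bu x).2]⟩
  have eM : K₂ * K * (1 + |Cg|) * ρ ^ (-q) = M + |Cg| * M := by
    rw [hM]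
    ring
  refine ⟨u, su, fun x => ?_, fun x hx => ?_, ?_, fun x => ?_⟩
  · rw [eM]
    exact ((ub x).trans (eb x).2).trans (le_add_of_nonneg_right (by positivity))
  · have k := hg 1 M 0 x (fun y => u y + -1) one_pos le_rfl fun y hy => by
      have y1 : ‖y‖ < |R'| + 1 := by
        have := norm_le_norm_add_norm_sub' y x
        rw [mem_ball, dist_eq_norm] at hy
        linarith [le_abs_self R']
      refine ⟨(su.c2 y).add contDiffAt_const, (ub y).trans (eb y).2, le_of_eq ?_⟩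
      rw [wl_one, lap_add_const, lap_of_ev (e1 y (y1.trans_le (le_max_right _ _))),
        ← lap_of_ev (e2 y (y1.trans_le a5)), eu, (bf y).1 (Or.inl (y1.le.trans a5)), zero_div,
        zero_mul, abs_zero]
    rw [fderiv_add_const, div_one, mul_zero, add_zero] at k
    rw [eM]
    exact (k.trans (mul_le_mul_of_nonneg_right (le_abs_self _) M0.le)).trans
      (le_add_of_nonneg_left M0.le)
  · have t1 := ((tendsto_rpow_neg_atTop (y := n - 2) (by linarith)).comp
      (tendsto_norm_cocompact_atTop (E := E n))).const_mul (ε * K)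
    rw [mul_zero] at t1
    refine tendsto_iff_norm_sub_tendsto_zero.2 (squeeze_zero' (Eventually.of_forall fun _ =>
      norm_nonneg _) ?_ t1)
    filter_upwards [(tendsto_norm_cocompact_atTop (E := E n)).eventually (eventually_ge_atTop ρ)]
      with x hx
    refine (ub x).trans ((mul_le_mul_of_nonneg_left (B.dec x hx) e0.le).trans (le_of_eq ?_))
    rw [Function.comp, neg_sub, mul_assoc ε]
  · rw [eu]
    field_simp

open Usol in
theorem usk_of (h1 : USK1) (hN : NEWT) (hX : FLUX) (hM : MASK) (hF : FEK) (hA : MAT) (hC : CUTM) :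
    USK := by
  intro n g q C R m hB R' e he
  have hn := hB.dim
  have hn0 : 0 < n := by omega
  have hn' : (3 : ℝ) ≤ n := by exact_mod_cast hn
  have hq : 0 < q := by linarith [hB.q0]
  have hω := omega_pos hn0
  have hγ : 0 < gam n := one_pos.trans (one_lt_gam hn)
  obtain ⟨K₁, hK₁, ρ₁, hU⟩ := h1 n g q C R m hB R'
  obtain ⟨C₀, hN⟩ := hN n hn
  obtain ⟨K₂, hK₂, ρ₂, hF⟩ := hF n g q C R m hB
  obtain ⟨e₀, he₀, K₃, hK₃, hA⟩ := hA n
  obtain ⟨C', hC', hC⟩ := hC n q C hB.C0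
  have ht : ∀ (K s ε : ℝ), 0 < s → 0 < ε → ∀ᶠ ρ : ℝ in atTop, K * ρ ^ (-s) ≤ ε :=
    fun K s ε hs hε => by
      have := (tendsto_rpow_neg_atTop hs).const_mul K
      rw [mul_zero] at this
      exact this.eventually_le_const hε
  have hε : 0 < (n - 1) * omega n * e := mul_pos (mul_pos (by linarith) hω) he
  have hm := (hM n g q C R m hB).eventually_const_le
    (u := -(2 * (n - 1) * omega n * m) - (n - 1) * omega n * e) (by linarith)
  refine eventually_atTop.1 ?_
  filter_upwards [hm, eventually_ge_atTop ρ₁, eventually_ge_atTop ρ₂, eventually_ge_atTop R,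
    ht K₁ q (min e 1) hq (lt_min he one_pos), ht C' q e₀ hq he₀,
    ht (K₂ * (2 * K₃ * C' + K₁) * (omega n / n * 2 ^ n)) (2 * q + 2 - n) _
      (by linarith [hB.q0]) hε] with ρ hm hρ₁ hρ₂ hρ e1 e2 e3
  have hρ1 : 1 ≤ ρ := hB.R1.trans hρ
  have hρ0 : 0 < ρ := one_pos.trans_le hρ1
  obtain ⟨u, hu, u1, u2, u3, u4⟩ := hU ρ hρ₁
  obtain ⟨hG, hf, haf, -⟩ := hC g R ρ hB.met hB.af (one_pos.trans_le hB.R1) hρ
  obtain ⟨hs, hF⟩ := hF ρ hρ₂
  have f0 : ∀ x, 2 * ρ ≤ ‖x‖ → fe g ρ x = 0 := fun x hx => (hF x).1 (.inr hx)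
  obtain ⟨β, hβ, -⟩ := hN u 1 (2 * ρ) _ 0 (by linarith) hu (fun x hx => ⟨u1 x, by
    have := u4 x
    rw [f0 x hx, zero_mul] at this
    rw [← hf.lap_eq' hn0 hG hu hx, (mul_eq_zero.1 this).resolve_left (by positivity)]
    simp⟩) u3
  refine ⟨u, β, hu, fun x => (u1 x).trans (e1.trans (min_le_left _ _)),
    fun x hx => (u2 x hx).trans (e1.trans (min_le_left _ _)), u4, hβ, ?_⟩
  have hp : 0 ≤ ρ ^ (-q) := Real.rpow_nonneg hρ0.le _
  have j1 := small (h := fun x => fe g ρ x * (dens (gc g ρ) x * u x - 1))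
    (M := K₂ * ρ ^ (-(q + 2)) * ((2 * K₃ * C' + K₁) * ρ ^ (-q))) (r := 2 * ρ) hn0 (by linarith)
    (fun x => by
      rcases le_total ‖x‖ ρ with h | h
      · rw [(hF x).1 (.inl h), zero_mul, abs_zero]; positivity
      · rw [abs_mul]
        refine mul_le_mul (hF x).2.1 ?_ (abs_nonneg _) (by positivity)
        have a1 := (hA (gc g ρ) x (C' * ρ ^ (-q)) hG (by positivity) e2 fun i j =>
          (haf x (hρ.trans h) i j i i).1.trans (mul_le_mul_of_nonneg_left
            (Real.rpow_le_rpow_of_nonpos hρ0 h (by linarith)) hC'.le)).2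
        have a2 : |u x| ≤ 2 := by
          have := abs_le.1 ((u1 x).trans (e1.trans (min_le_right _ _)))
          exact abs_le.2 ⟨by linarith, by linarith⟩
        have a3 := mul_le_mul a1 a2 (abs_nonneg _) (by positivity)
        calc |dens (gc g ρ) x * u x - 1| = |(dens (gc g ρ) x - 1) * u x + (u x - 1)| := by
              congr 1; ring
          _ ≤ |dens (gc g ρ) x - 1| * |u x| + |u x - 1| := by
              rw [← abs_mul]; exact abs_add_le _ _
          _ ≤ _ := by linarith [u1 x])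
    fun x hx => by rw [f0 x hx, zero_mul]
  have j2 : K₂ * ρ ^ (-(q + 2)) * ((2 * K₃ * C' + K₁) * ρ ^ (-q)) * (omega n / n * (2 * ρ) ^ n) =
      K₂ * (2 * K₃ * C' + K₁) * (omega n / n * 2 ^ n) * ρ ^ (-(2 * q + 2 - n)) := by
    have : ρ ^ (-(2 * q + 2 - n)) = ρ ^ (-(q + 2)) * ρ ^ (-q) * ρ ^ n := by
      rw [← Real.rpow_natCast, ← Real.rpow_add hρ0, ← Real.rpow_add hρ0]; congr 1; ring
    rw [this, mul_pow]; ring
  have j3 : ∫ x, fe g ρ x * (dens (gc g ρ) x * u x - 1) =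
      -(4 * (n - 1) * omega n * β) - ∫ x, fe g ρ x := by
    rw [← flux hX hn hG hf hu hβ f0 u4, ← integral_sub (integrable_of_out
      (f := fun x => fe g ρ x * (dens (gc g ρ) x * u x)) (hs.cont.mul (hG.sm_dens.cont.mul hu.cont)) fun x hx => by rw [f0 x hx, zero_mul])
      (integrable_of_out hs.cont f0)]
    congr 1; ext x; ring
  rw [j2, j3] at j1
  have j4 := (abs_le.1 (j1.trans e3)).1
  refine le_of_mul_le_mul_left ?_ (mul_pos (show (0 : ℝ) < n - 1 by linarith) hω)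
  linarith

end UskH

open UskH

theorem fek : FEK := fek_of scl cutm

theorem usk : USK :=
  usk_of (usk1_of sub bar cutm fek grad) newt flux (mask_of mas1 scl cutm) fek mat0 cutm

end Vale.Agent.P366Y.A
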