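import Vale.Agent.P366Y.A.Defs
import Vale.Agent.P366Z.St0.Wt

/-!
# P366Y, block A, row WK: the strict supersolution on the exterior domain
-/

open MeasureTheory Metric Filter Topology Set
open scoped ContDiff ENNReal
open Vale.Agent.P366.Stmt Vale.Agent.P366Z Vale.Agent.P366Z.St0 Vale.Agent.P366Z.St0.Wt0

noncomputable section

namespace Vale.Agent.P366Y.A

namespace WkH

variable {n : ℕ} {g K : Field n} {u v : E n → ℝ} {x : E n} {q q' C C' R : ℝ}

/-- the operator with the drift -/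
def nn (g K : Field n) (u : E n → ℝ) (x : E n) : ℝ := lap g u x + √(normSq g K x) * gn g u x

theorem cont_k (hg : Met g) (hK : Sy K) : Continuous fun x => √(normSq g K x) := by
  have h1 := fun i j => (hg.sm_up i j).cont
  have h2 := fun i j => (hK.sm i j).cont
  unfold normSq
  fun_prop

theorem cont_nn (hg : Met g) (hK : Sy K) (hu : Smooth u) : Continuous (nn g K u) :=
  (hg.sm_lap hu).cont.add ((cont_k hg hK).mul (hg.sm_ip hu hu).cont.sqrt)

theorem nn_congr (e : u =ᶠ[𝓝 x] v) : nn g K u x = nn g K v x := by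
  rw [nn, nn, lap_congr e, gn_congr e]

theorem nn_const {c : ℝ} (e : u =ᶠ[𝓝 x] fun _ => c) : nn g K u x = 0 := by
  rw [nn_congr e, nn, lap_const, gn_zero fun i => pd_const c i x, mul_zero, add_zero]

theorem nn_add (hg : Met g) (hu : Smooth u) (hv : Smooth v) {A : ℝ} (hA : 0 ≤ A) :
    nn g K (fun y => 1 * u y + A * v y) x ≤ nn g K u x + A * nn g K v x := by
  have h1 := hg.gn_add_le (u := fun y => 1 * u y + A * v y) (u₁ := u) (u₂ := fun y => A * v y)
    (x := x) fun i => by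
      simp only [one_mul]
      exact pd_add (hu.diff x) ((hv.diff x).const_mul A) i
  rw [gn_of_pd (u := fun y => A * v y) (u' := v) (s := A) fun i => pd_const_mul A i,
    abs_of_nonneg hA] at h1
  have h2 := mul_le_mul_of_nonneg_left h1 (Real.sqrt_nonneg (normSq g K x))
  rw [nn, nn, nn, hg.lap_lin (hu.c2 x) (hv.c2 x)]
  linarith

theorem pw (h1 : 1 ≤ ‖x‖) (hq : q' ≤ q) (hC : C ≤ C') (C0 : 0 ≤ C') :
    C * ‖x‖ ^ (-q) ≤ C' * ‖x‖ ^ (-q') :=
  mul_le_mul hC (Real.rpow_le_rpow_of_exponent_le h1 (neg_le_neg hq)) (by positivity) C0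

theorem af_mono (h : Af g q C R) (h1 : 1 ≤ R) (hq : q' ≤ q) (hC : C ≤ C') (C0 : 0 ≤ C') :
    Af g q' C' R := fun x hx i j k l =>
  ⟨(h x hx i j k l).1.trans (pw (h1.trans hx) hq hC C0),
    (h x hx i j k l).2.1.trans (pw (h1.trans hx) (by linarith) hC C0),
    (h x hx i j k l).2.2.trans (pw (h1.trans hx) (by linarith) hC C0)⟩

theorem mg_pos : 0 < mg q' x := by unfold mg; positivity

theorem mg_le (h : 0 < q') : mg q' x ≤ 1 :=
  Real.rpow_le_one_of_one_le_of_nonpos (le_add_of_nonneg_right (norm_nonneg x))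
    (neg_nonpos.2 (by positivity))

theorem mg_le' (h : 0 < q') (hx : 0 < ‖x‖) : mg q' x ≤ ‖x‖ ^ (-(n + q')) :=
  Real.rpow_le_rpow_of_nonpos hx (by linarith) (neg_nonpos.2 (by positivity))

end WkH

open WkH

theorem wk_of : BAK → THK → FEK → CUTM → BUB → ASY → WK := by
  intro hB hT hFE hC hU _ n g K F q C R m q' hS q0 qq
  have hn := hS.dim
  have hg := hS.met
  have R1 := hS.R1
  have γ1 := one_lt_gam hn
  obtain ⟨C', C0, hC⟩ := hC n q C hS.C0
  have C1 : 0 < max C C' := lt_max_of_lt_right C0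
  obtain ⟨c, c0, K₀, K0, R₀, -, hB⟩ := hB n q' (max C C') hn q0 C1
  obtain ⟨Kf, Kf0, ρf, hFE⟩ := hFE n g q C R m hS.toB0
  obtain ⟨r, h1, h2⟩ : ∃ r, 2 * R ≤ r ∧ R₀ ≤ r := ⟨_, le_max_left _ _, le_max_right _ _⟩
  have r0 : 0 < r := by linarith
  have cB := isCompact_closedBall (0 : E n)
  obtain ⟨k, hk⟩ := (cB r).exists_bound_of_continuousOn (cont_k hg hS.sy).continuousOn
  obtain ⟨θ, sθ, hθ, hθ'⟩ := hT n g F r |k| hn hg hS.ext (abs_nonneg k)
  obtain ⟨c₁, c1, hc₁⟩ := ((cB r).inter_right (isClosed_le continuous_const hS.ext.1.cont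
      (f := fun _ => 0))).exists_forall_le' (cont_nn hg hS.sy sθ).neg.continuousOn (a := 0)
    fun x hx => by
      have k1 := hθ x hx.2 (mem_closedBall_zero_iff.1 hx.1)
      have k2 := mul_le_mul_of_nonneg_right
        ((le_abs_self _).trans ((hk x hx.1).trans (le_abs_self k))) (gn_nonneg g θ x)
      simp only [Pi.neg_apply, nn]
      linarith
  have hK : IsCompact {x | F x = 0} := (cB R).of_isClosed_subset
    (isClosed_eq hS.ext.1.cont continuous_const) fun x hx => mem_closedBall_zero_iff.2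
      (not_lt.1 fun h => by linarith [hS.far x h.le, show F x = 0 from hx])
  obtain ⟨c₂, c2, hc₂⟩ := hK.exists_forall_le' (hg.sm_ip sθ hS.ext.1).cont.neg.continuousOn
    (a := 0) fun x hx => neg_pos.2 (hθ' x hx)
  obtain ⟨z, hz⟩ : ∃ z : E n → ℝ, z = fun x => cut r x * θ x := ⟨_, rfl⟩
  have sz : Smooth z := hz ▸ ContDiff.mul (sm_cut r) sθ
  have z0 : ∀ x, 2 * r ≤ ‖x‖ → z x = 0 := fun x hx => by simp [hz, cut_zero r0 hx]
  have z1 : ∀ x, 2 * r < ‖x‖ → z =ᶠ[𝓝 x] fun _ => 0 := fun x hx =>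
    (ev_gt hx).mono fun y hy => z0 y hy.le
  have z2 : ∀ x, ‖x‖ < r → z =ᶠ[𝓝 x] θ := fun x hx =>
    (ev_lt hx).mono fun y hy => by simp [hz, cut_one hy.le]
  obtain ⟨M, M0, hM⟩ := bdd_of_const sz (R := 2 * r) (c := 0) fun y hy => z0 y hy.le
  obtain ⟨M', hM'⟩ := (cB (2 * r)).exists_bound_of_continuousOn (cont_nn hg hS.sy sz).continuousOn
  have p1 : 0 < c * r ^ q' := by positivity
  have p0 : 0 < c * r ^ q' * (2 * r) ^ (-(n + q')) := by positivity
  obtain ⟨A, A0, hA⟩ : ∃ A, 0 < A ∧ A * (c * r ^ q' * (2 * r) ^ (-(n + q'))) = |M'| + 1 :=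
    ⟨_, by positivity, div_mul_cancel₀ _ p0.ne'⟩
  obtain ⟨e, e0, e1, e2, e3, e4⟩ : ∃ e, 0 < e ∧ e ≤ c₁ ∧ e ≤ c₂ ∧ e ≤ 1 ∧ e ≤ A * (c * r ^ q') :=
    ⟨min (min c₁ c₂) (min 1 (A * (c * r ^ q'))), by positivity, by simp, by simp, by simp, by simp⟩
  obtain ⟨ρ₁, hρ₁⟩ := eventually_atTop.1 (((tendsto_rpow_atTop (sub_pos.2 qq)).const_mul_atTop
    p1).eventually_ge_atTop (Kf * K₀))
  have a1 : 0 < A * (K₀ * r ^ (2 - n : ℝ)) := by positivity
  have a2 := mul_pos A0 K0
  have a3 : 0 < 2 * r * M := by positivity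
  refine ⟨M + 2 * r * M + A * (K₀ * r ^ (2 - n : ℝ)) + A * K₀, by positivity, e, e0,
    max (3 * r) (max ρf ρ₁), fun ρ hρ => ?_⟩
  rw [ge_iff_le, max_le_iff, max_le_iff] at hρ
  obtain ⟨ρ1, ρ2, ρ3⟩ := hρ
  obtain ⟨-, hfe⟩ := hFE ρ ρ2
  obtain ⟨m1, f1, af, v0, v1⟩ := hC g R ρ hg hS.af (by linarith) (by linarith)
  obtain ⟨b, β, hb, b1, b2⟩ := hB _ R r ρ m1 (af_mono af R1 qq.le (le_max_right _ _) C1.le) h1 h2
    (by linarith) f1
  have b3 : ∀ x, R ≤ ‖x‖ → ‖x‖ < ρ → nn g K b x ≤ lap (gc g ρ) b x +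
      max C C' * ‖x‖ ^ (-(q' + 1)) * gn (gc g ρ) b x := fun x k1 k2 => by
    rw [lap_of_ev (v1 x k2), gn_of_eq (v0 x k2.le)]
    exact add_le_add_right (mul_le_mul_of_nonneg_right ((hS.dk x k1).1.trans
      (pw (R1.trans k1) (by linarith) (le_max_left _ _) C1.le)) (gn_nonneg _ _ _)) _
  have l1 : ∀ x, 2 * r < ‖x‖ → lap (gc g ρ) (fun y => 1 * z y + A * b y) x =
      A * lap (gc g ρ) b x := fun x hx => by
    rw [m1.lap_lin (sz.c2 x) (hb.sm.c2 x), lap_congr (z1 x hx), lap_const, mul_zero, zero_add]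
  have l2 : ∀ x, 3 * ρ ≤ ‖x‖ → 1 * z x + A * b x = A * β * ‖x‖ ^ (2 - n : ℝ) :=
    fun x hx => by rw [z0 x (by linarith), hb.out x hx]; ring
  have hU' := (hU n hn).2.2.2.2.2 _ _ _ (by linarith) l2
  have main : ∀ x, 0 ≤ F x → ‖x‖ < ρ →
      nn g K (fun y => 1 * z y + A * b y) x ≤ -(e * mg q' x) := fun x hx hx' => by
    refine (nn_add hg sz hb.sm A0.le).trans ?_
    have k0 : e * mg q' x ≤ e := mul_le_of_le_one_right e0.le (mg_le q0)
    rcases lt_or_ge ‖x‖ r with h | h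
    · have k1 : nn g K b x ≤ 0 := by
        rcases lt_or_ge ‖x‖ (r / 2) with h' | h'
        · exact (nn_const ((ev_lt h').mono fun y hy => hb.inn y hy.le)).le
        · exact (b3 x (by linarith) hx').trans (b2 x (by linarith)).1
      have k2 : c₁ ≤ -nn g K θ x := hc₁ x ⟨mem_closedBall_zero_iff.2 h.le, hx⟩
      rw [nn_congr (z2 x h)]
      linarith [mul_nonpos_of_nonneg_of_nonpos A0.le k1]
    have k1 := mul_le_mul_of_nonneg_left
      ((b3 x (by linarith) hx').trans ((b2 x (by linarith)).2 h)) A0.le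
    rcases le_or_gt ‖x‖ (2 * r) with h' | h'
    · have k2 := (le_abs_self _).trans
        ((hM' x (mem_closedBall_zero_iff.2 h')).trans (le_abs_self _))
      have k3 := mul_le_mul_of_nonneg_left (Real.rpow_le_rpow_of_nonpos (r0.trans_le h) h'
        (z := -(n + q')) (neg_nonpos.2 (by positivity))) (mul_pos A0 p1).le
      linarith
    · have k2 := mul_le_mul e4 (mg_le' q0 (r0.trans_le h)) mg_pos.le (mul_pos A0 p1).le
      rw [nn_const (z1 x h')]
      linarith
  refine ⟨fun y => 1 * z y + A * b y, A * β,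
    ContDiff.add (contDiff_const.mul sz) (contDiff_const.mul hb.sm), fun x => ?_, fun x => ?_,
    main, fun x hx hx' => ?_, fun x hx => ?_, fun x hx => ?_, fun x hx => ?_, hU'.1, ?_⟩
  · have k1 := mul_le_mul_of_nonneg_left ((hb.bd x).2.trans hb.top) A0.le
    have k2 := mul_nonneg A0.le (hb.bd x).1
    have k3 := abs_le.1 (hM x).1
    exact abs_le.2 ⟨by linarith, by linarith⟩
  · have k1 : ‖x‖ * ‖fderiv ℝ z x‖ ≤ 2 * r * M := by
      rcases le_or_gt ‖x‖ (2 * r) with h | h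
      · exact mul_le_mul h (hM x).2 (norm_nonneg _) (by linarith)
      · simpa [(z1 x h).fderiv_eq] using a3.le
    have k2 : ‖fderiv ℝ (fun y => 1 * z y + A * b y) x‖ ≤ ‖fderiv ℝ z x‖ + A * ‖fderiv ℝ b x‖ := by
      simp only [one_mul]
      rw [fderiv_fun_add (sz.diff x) ((hb.sm.diff x).const_mul A), fderiv_const_mul (hb.sm.diff x)]
      exact (norm_add_le _ _).trans_eq (by rw [norm_smul, Real.norm_of_nonneg A0.le])
    have k3 := mul_le_mul_of_nonneg_left k2 (norm_nonneg x)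
    have k4 := mul_le_mul_of_nonneg_left (b1 x) A0.le
    linarith
  · have k0 := mul_pos e0 (mg_pos (q' := q') (x := x))
    rcases lt_or_ge ‖x‖ ρ with h | h
    · have k1 := main x (by linarith [hS.far x hx]) h
      have k2 := mul_nonneg (Real.sqrt_nonneg (normSq g K x))
        (gn_nonneg g (fun y => 1 * z y + A * b y) x)
      rw [(hfe x).1 (Or.inl h.le), zero_mul, add_zero, lap_of_ev (v1 x h)]
      rw [nn] at k1
      nlinarith
    have x0 : 0 < ‖x‖ := by linarith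
    have x1 := Real.rpow_pos_of_pos x0 (-(n + q'))
    have k1 := hb.str x (by linarith) hx'
    have k2 : -(c * r ^ q' * ‖x‖ ^ (-(n + q'))) ≤ fe g ρ x * b x := by
      refine neg_le_of_abs_le ?_
      rw [abs_mul, abs_of_nonneg (hb.bd x).1]
      refine (mul_le_mul ((hfe x).2.2 h) (hb.dec x (by linarith)) (hb.bd x).1
        (by positivity)).trans ?_
      rw [mul_mul_mul_comm, ← Real.rpow_add x0]
      refine (mul_le_mul_of_nonneg_right (hρ₁ _ (ρ3.trans h)) (by positivity)).trans_eq ?_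
      rw [mul_assoc, ← Real.rpow_add x0]
      congr 2
      ring
    have k3 := mul_le_mul e4 (mg_le' q0 x0) mg_pos.le (mul_pos A0 p1).le
    have k4 : c * r ^ q' * ‖x‖ ^ (-(n + q')) ≤
        -(4 * gam n) * lap (gc g ρ) b x + fe g ρ x * b x := by nlinarith [mul_pos p1 x1]
    have k5 := mul_le_mul_of_nonneg_left k4 A0.le
    simp only [l1 x (by linarith), z0 x (by linarith)]
    linarith
  · rw [l1 x (by linarith)]
    exact mul_nonpos_of_nonneg_of_nonpos A0.le (hb.sup x)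
  · rw [f1.lap_eq (by linarith)]
    exact hU'.2 x (by linarith)
  · have k1 : ‖x‖ < R := not_le.1 fun h => by linarith [hS.far x h]
    rw [ip_congr (u' := fun y => θ y + A * b 0) (((z2 x (by linarith)).and
      (ev_lt (show ‖x‖ < r / 2 by linarith))).mono fun y hy => by
        simp [hy.1, hb.inn y hy.2.le]) EventuallyEq.rfl,
      ip_add_left (sθ.diff x) (differentiableAt_const _), ip_const_left, add_zero]
    exact le_neg.1 (e2.trans (hc₂ x hx))
  · have k1 := mul_le_mul_of_nonneg_left hb.βK A0.le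
    linarith

end Vale.Agent.P366Y.A
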