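import Vale.Agent.P366Y.A.Bak
import Vale.Agent.P366Y.A.Cf1
import Vale.Agent.P366Y.A.Cf2
import Vale.Agent.P366Y.A.Cvx
import Vale.Agent.P366Y.A.Exk
import Vale.Agent.P366Y.A.Fin
import Vale.Agent.P366Y.A.Hop
import Vale.Agent.P366Y.A.Inn
import Vale.Agent.P366Y.A.Ppk
import Vale.Agent.P366Y.A.Pre
import Vale.Agent.P366Y.A.Thk
import Vale.Agent.P366Y.A.Usk
import Vale.Agent.P366Y.A.Wk

/-!
# P366Y: block A
-/

namespace Vale.Agent.P366Y.A

open Vale.Agent.P366Z Vale.Agent.P366Z.St0 in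
/-- the reduction to the prepared data -/
theorem red0 : RED0 :=
  red0_of (exk_of mat0) cf1 cf2 cf3 cok
    (pre_of (wk_of (bak_of mat0 scl) (thk_of hop) fek cutm bub0 asy) ppk usk fek cutm asy) inn
    (cvx_of mat0) (vpi_of bub0 asy) cutm (cmp_of mat0)

end Vale.Agent.P366Y.A
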