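import Vale.Agent.P366Y.A.Defs
import Vale.Agent.P366Z.St0.Bar

/-!
# P366Y, block A: the radial barrier with a drift
-/

open MeasureTheory Metric Filter Topology Set
open scoped ContDiff ENNReal
open Vale.Agent.P366.Stmt Vale.Agent.P366Z Vale.Agent.P366Z.St0

noncomputable section

namespace Vale.Agent.P366Y.A

open BarA

/-- **BAK** -/
theorem bak_of (hM : MAT) (hS : SCL) : BAK := by
  intro n q C hn hq hC
  obtain ⟨e, e0, K, K0, hK⟩ := hM n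
  obtain ⟨e', e0', K', K0', hK'⟩ := hS n
  have n3 : (3 : ℝ) ≤ n := by exact_mod_cast hn
  obtain ⟨A, hA⟩ : ∃ A, A = (2 * n * (K + K') + n ^ 2 * K) * C := ⟨_, rfl⟩
  have A0 : 0 < A := by rw [hA]; positivity
  obtain ⟨S₀, hS₀⟩ := eventually_atTop.1 (((tendsto_rpow_atTop hq).eventually_ge_atTop
    (C / e + C / e' + 2 * A + A * (1 + 2 * n) / (q / 8) + 3 * C / (q / 16))).and (eventually_ge_atTop 1))
  have N1 : 1 < (n : ℝ) / 2 := by linarith
  have β0 : 0 < ((n : ℝ) / 2 - 1)⁻¹ := inv_pos.2 (by linarith)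
  have two : (1 : ℝ) ≤ 2 ^ (n - 2 : ℝ) := Real.one_le_rpow one_le_two (by linarith)
  refine ⟨q / 32 / 2 ^ q, by positivity, ((n : ℝ) / 2 - 1)⁻¹ * 2 ^ (n - 2 : ℝ) + 2, by positivity,
    2 * max S₀ 1, by positivity, fun g R₁ R ρ hg ha r1 r2 r3 hf => ?_⟩
  obtain ⟨S, rfl⟩ : ∃ S, R = 2 * S := ⟨R / 2, by ring⟩
  obtain ⟨s2, s1⟩ := hS₀ S (by linarith [le_max_left S₀ 1])
  have S0 : 0 < S := by linarith
  have W0 := Real.rpow_pos_of_pos S0 q
  have pw : ∀ r : ℝ, 0 ≤ r → (r ^ 2) ^ (-(q / 2)) = r ^ (-q) ∧ (r ^ 2) ^ (-(n / 2 : ℝ)) = r ^ (-n : ℝ) ∧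
      (r ^ 2) ^ (1 - n / 2 : ℝ) = r ^ (2 - n : ℝ) := fun r h => by
    simp only [sq_rpow h]
    refine ⟨?_, ?_, ?_⟩ <;> refine congrArg _ ?_ <;> ring
  have w1 : ∀ r, S ≤ r → S ^ q * r ^ (-q) ≤ 1 := fun r h =>
    (mul_le_mul_of_nonneg_left (Real.rpow_le_rpow_of_nonpos S0 h (by linarith)) W0.le).trans_eq
      (by rw [Real.rpow_neg S0.le, mul_inv_cancel₀ W0.ne'])
  obtain ⟨Φ, μ, μ', P⟩ := ex_pr (W := S ^ q) (s := S ^ 2) (T₀ := (2 * ρ) ^ 2) (T := (3 * ρ) ^ 2) N1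
    (half_pos hq) (by positivity) W0.le ((pw S S0.le).1 ▸ w1 S le_rfl) (by nlinarith) (by nlinarith)
  have ps : ∀ t, 0 ≤ μ t * t ^ (-(n / 2 : ℝ)) := fun t => (le_total t (S ^ 2)).elim
    (fun h => by rw [P.zero t h, zero_mul]) fun h =>
      mul_nonneg (P.bd t).1 (Real.rpow_nonneg ((sq_nonneg S).trans h) _)
  have an : ∀ a b, a ≤ b → Φ b ≤ Φ a := fun a b h =>
    anti h fun t _ => ⟨P.d1 t, neg_nonpos.2 (ps t)⟩
  have inn : ∀ t, 0 ≤ t → t ≤ S ^ 2 → Φ t = Φ 0 := fun t h h' =>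
    cst h fun u hu => ⟨P.d1 u, by rw [P.zero u (hu.2.trans h'), zero_mul, neg_zero]⟩
  have pos : ∀ t, 0 < Φ t := fun t => by
    have k : 0 < max t ((3 * ρ) ^ 2) := lt_max_of_lt_right (by nlinarith)
    refine lt_of_lt_of_le ?_ (an t _ (le_max_left t ((3 * ρ) ^ 2)))
    rw [P.out _ (le_max_right _ _)]
    positivity
  have b0 : Φ (‖(0 : E n)‖ ^ 2) = Φ 0 := by simp
  have q4 : 0 ≤ 3 * C / (q / 16) := by positivity
  have key : ∀ x : E n, S ≤ ‖x‖ → ‖x‖ ≤ 2 * ρ →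
      ip g (fun y => ‖y‖ ^ 2) (fun y => ‖y‖ ^ 2) x ≤ (3 * ‖x‖) ^ 2 ∧
      lap g (fun y => Φ (‖y‖ ^ 2)) x ≤
      -(μ (‖x‖ ^ 2) * (q / 8 * S ^ q * (‖x‖ ^ (-q) * ‖x‖ ^ (-n : ℝ)))) := fun x h h' => by
    have x0 := S0.trans_le h
    have y0 := Real.rpow_pos_of_pos x0 (-q)
    have z0 := Real.rpow_pos_of_pos x0 (-n : ℝ)
    have af := ha x (by linarith)
    have sm : ∀ B, B ≤ S ^ q → B * ‖x‖ ^ (-q) ≤ 1 := fun B k =>
      (mul_le_mul_of_nonneg_right k y0.le).trans (w1 _ h)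
    have d : ∀ c, 0 < c → C / c ≤ S ^ q → C * ‖x‖ ^ (-q) ≤ c := fun c c0 k => by
      have := sm _ k
      rwa [div_mul_eq_mul_div, div_le_one c0] at this
    have q1 : 0 ≤ C / e := by positivity
    have q2 : 0 ≤ C / e' := by positivity
    have q3 : 0 ≤ A * (1 + 2 * n) / (q / 8) := by positivity
    obtain ⟨l1, l2⟩ := est hg (hK g x _ hg (by positivity) (d e e0 (by linarith))
      fun i j => (af i j i i).1).1 (hK' g x _ _ _ hg (by positivity) (d e' e0' (by linarith))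
        (by positivity) (by positivity) (fun i j => (af i j i i).1) (fun i j k => (af i j k k).2.1)
        fun i j k l => (af i j k l).2.2).2.2
    have e1 : K' * (C * ‖x‖ ^ (-(q + 1))) * ‖x‖ = K' * (C * ‖x‖ ^ (-q)) := by
      rw [neg_add', Real.rpow_sub_one x0.ne']
      field_simp
    rw [e1] at l1
    have u1 : 0 ≤ n ^ 2 * (K * (C * ‖x‖ ^ (-q))) := by positivity
    have u2 : 0 ≤ 2 * n * (K * (C * ‖x‖ ^ (-q)) + K' * (C * ‖x‖ ^ (-q))) := by positivity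
    have u3 : A * ‖x‖ ^ (-q) = 2 * n * (K * (C * ‖x‖ ^ (-q)) + K' * (C * ‖x‖ ^ (-q))) +
        n ^ 2 * (K * (C * ‖x‖ ^ (-q))) := by rw [hA]; ring
    have t1 : S ^ 2 ≤ ‖x‖ ^ 2 := by gcongr
    have u4 := P.str _ t1 (by gcongr)
    have u5 : A * (1 + 2 * n) ≤ S ^ q * (q / 8) := (div_le_iff₀ (by positivity)).1 (by linarith)
    have u6 := mul_le_mul_of_nonneg_left (mul_le_mul_of_nonneg_right u5 y0.le) (P.bd (‖x‖ ^ 2)).1
    have u7 : 0 ≤ μ (‖x‖ ^ 2) * (q * S ^ q * ‖x‖ ^ (-q)) := mul_nonneg (P.bd _).1 (by positivity)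
    have u8 : n ^ 2 * (K * (C * ‖x‖ ^ (-q))) ≤ 1 := by linarith [sm (2 * A) (by linarith)]
    have u9 := mul_le_mul_of_nonneg_left u8 (by positivity : 0 ≤ 4 * ‖x‖ ^ 2)
    refine ⟨by linarith [(abs_le.1 l2).2, sq_nonneg ‖x‖], ?_⟩
    rw [hg.lap_comp contDiff_normSq.contDiffAt (P.sm.contDiffAt.of_le (by norm_cast)),
      (P.d1 _).deriv, P.d2 _ (by positivity), (pw _ x0.le).2.1]
    rw [(pw _ x0.le).1] at u4
    refine (alg (ε := A * ‖x‖ ^ (-q)) (by positivity) (P.bd _).1 (P.mono _ t1) (by positivity) z0.le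
      (by linarith) (l2.trans (mul_le_mul_of_nonneg_left (by linarith) (by positivity)))
      (by linarith [sm (2 * A) (by linarith)])).trans ?_
    refine (mul_le_mul_of_nonneg_left (c := -(μ (‖x‖ ^ 2) * (q / 8 * S ^ q * ‖x‖ ^ (-q))))
      (by linarith) z0.le).trans_eq ?_
    ring
  have key2 : ∀ x : E n, S ≤ ‖x‖ → ‖x‖ ≤ 2 * ρ → lap g (fun y => Φ (‖y‖ ^ 2)) x +
      C * ‖x‖ ^ (-(q + 1)) * gn g (fun y => Φ (‖y‖ ^ 2)) x ≤
      -(μ (‖x‖ ^ 2) * (q / 16 * S ^ q * (‖x‖ ^ (-q) * ‖x‖ ^ (-n : ℝ)))) := fun x h h' => by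
    have x0 := S0.trans_le h
    obtain ⟨k1, k2⟩ := key x h h'
    have k3 : gn g (fun y => ‖y‖ ^ 2) x ≤ 3 * ‖x‖ := Real.sqrt_le_iff.2 ⟨by positivity, k1⟩
    have k4 : gn g (fun y => Φ (‖y‖ ^ 2)) x ≤ μ (‖x‖ ^ 2) * ‖x‖ ^ (-n : ℝ) * (3 * ‖x‖) := by
      rw [gn_comp (u := fun y => ‖y‖ ^ 2) (P.d1 _) (Smooth.diff contDiff_normSq x), abs_neg,
        abs_of_nonneg (ps _), ← (pw _ x0.le).2.1]
      exact mul_le_mul_of_nonneg_left k3 (ps _)
    have k5 : 3 * C ≤ S ^ q * (q / 16) := (div_le_iff₀ (by positivity)).1 (by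
      have : 0 ≤ C / e := by positivity
      have : 0 ≤ C / e' := by positivity
      have : 0 ≤ A * (1 + 2 * n) / (q / 8) := by positivity
      linarith)
    have k6 := mul_le_mul_of_nonneg_left k4 (by positivity : 0 ≤ C * ‖x‖ ^ (-(q + 1)))
    have k7 : C * ‖x‖ ^ (-(q + 1)) * (μ (‖x‖ ^ 2) * ‖x‖ ^ (-n : ℝ) * (3 * ‖x‖)) =
        μ (‖x‖ ^ 2) * (‖x‖ ^ (-q) * ‖x‖ ^ (-n : ℝ)) * (3 * C) := by
      rw [neg_add', Real.rpow_sub_one x0.ne']
      field_simp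
    have k8 := mul_le_mul_of_nonneg_left k5 (mul_nonneg (P.bd (‖x‖ ^ 2)).1
      (by positivity : 0 ≤ ‖x‖ ^ (-q) * ‖x‖ ^ (-n : ℝ)))
    linarith
  have loc : ∀ x : E n, ‖x‖ < S → (fun y : E n => Φ (‖y‖ ^ 2)) =ᶠ[𝓝 x] fun _ => Φ 0 :=
    fun x h => by
      filter_upwards [(isOpen_lt continuous_norm continuous_const).mem_nhds h] with y hy
      exact inn _ (sq_nonneg _) (by gcongr)
  have str : ∀ x : E n, 2 * S ≤ ‖x‖ → ‖x‖ ≤ 2 * ρ → lap g (fun y => Φ (‖y‖ ^ 2)) x +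
      C * ‖x‖ ^ (-(q + 1)) * gn g (fun y => Φ (‖y‖ ^ 2)) x ≤
      -(q / 32 / 2 ^ q * (2 * S) ^ q * ‖x‖ ^ (-(n + q))) := fun x h h' => by
    have x0 : 0 < ‖x‖ := by linarith
    refine (key2 x (by linarith) h').trans (neg_le_neg ?_)
    have k := P.half (‖x‖ ^ 2) (by nlinarith)
    rw [← Real.rpow_add x0, Real.mul_rpow zero_le_two S0.le, show -q + -(n : ℝ) = -(n + q) by ring]
    refine le_of_eq_of_le ?_ (mul_le_mul_of_nonneg_right k (by positivity))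
    field_simp
    norm_num
  have fd : ∀ x : E n, ‖fderiv ℝ (fun y : E n => Φ (‖y‖ ^ 2)) x‖ ≤
      μ (‖x‖ ^ 2) * (‖x‖ ^ 2) ^ (-(n / 2 : ℝ)) * (2 * ‖x‖) := fun x => by
    show ‖fderiv ℝ (Φ ∘ fun y : E n => ‖y‖ ^ 2) x‖ ≤ _
    rw [((P.d1 _).comp_hasFDerivAt x (hasStrictFDerivAt_norm_sq x).hasFDerivAt).fderiv,
      norm_smul, norm_neg, Real.norm_of_nonneg (ps _), two_smul]
    have k : ‖innerSL ℝ x + innerSL ℝ x‖ ≤ 2 * ‖x‖ := (norm_add_le _ _).trans_eq (by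
      rw [innerSL_apply_norm]; ring)
    exact mul_le_mul_of_nonneg_left k (ps _)
  have fd2 : ∀ x : E n, ‖x‖ * ‖fderiv ℝ (fun y : E n => Φ (‖y‖ ^ 2)) x‖ ≤ 2 ∧
      ‖fderiv ℝ (fun y : E n => Φ (‖y‖ ^ 2)) x‖ ≤ 2 := fun x => by
    have k0 := fd x
    rcases le_total ‖x‖ S with h | h
    · rw [P.zero _ (by gcongr), zero_mul, zero_mul] at k0
      exact ⟨(mul_nonpos_of_nonneg_of_nonpos (norm_nonneg _) k0).trans zero_le_two,
        k0.trans zero_le_two⟩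
    · have x0 := S0.trans_le h
      have k1 : ‖x‖ ^ (-n : ℝ) * ‖x‖ * ‖x‖ ≤ 1 := by
        rw [← Real.rpow_add_one x0.ne', ← Real.rpow_add_one x0.ne']
        exact Real.rpow_le_one_of_one_le_of_nonpos (by linarith) (by linarith)
      have k2 := mul_le_mul (P.bd (‖x‖ ^ 2)).2 k1 (by positivity) zero_le_one
      rw [(pw _ x0.le).2.1] at k0
      have k3 := mul_le_mul_of_nonneg_left k0 x0.le
      have k4 := le_mul_of_one_le_left (norm_nonneg (fderiv ℝ (fun y : E n => Φ (‖y‖ ^ 2)) x))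
        (s1.trans h)
      constructor <;> linarith
  have K2 : ((n : ℝ) / 2 - 1)⁻¹ * 2 ^ (n - 2 : ℝ) ≤ ((n : ℝ) / 2 - 1)⁻¹ * 2 ^ (n - 2 : ℝ) + 2 :=
    le_add_of_nonneg_right zero_le_two
  refine ⟨fun y => Φ (‖y‖ ^ 2), ((n : ℝ) / 2 - 1)⁻¹, ⟨P.sm.comp contDiff_normSq, fun x h => ?_,
    fun x => ⟨(pos _).le, an _ _ (by simp)⟩, pos _, ?_, fun x h => ?_, fun x => ?_,
    fun x h h' => ?_, fun x h => ?_, β0.le, (le_mul_of_one_le_right β0.le two).trans K2, ?_⟩,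
    fun x => (fd2 x).1.trans (le_add_of_nonneg_left (by positivity)),
    fun x h' => ⟨?_, fun h => str x h h'⟩⟩
  · rw [b0]
    exact inn _ (sq_nonneg _) (by gcongr; linarith)
  · refine le_trans ?_ (mul_le_mul_of_nonneg_right K2 (by positivity))
    rw [b0, ← inn _ (sq_nonneg S) le_rfl, Real.mul_rpow zero_le_two S0.le, mul_assoc,
      ← mul_assoc (2 ^ _), ← Real.rpow_add two_pos, sub_add_sub_cancel, sub_self, Real.rpow_zero,
      one_mul, ← (pw S S0.le).2.2]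
    exact P.le _ (by positivity)
  · have x0 : 0 < ‖x‖ := by linarith
    refine (P.le _ (by positivity)).trans ?_
    rw [(pw _ x0.le).2.2]
    exact mul_le_mul_of_nonneg_right ((le_mul_of_one_le_right β0.le two).trans K2) (by positivity)
  · rcases lt_or_ge ‖x‖ S with h | h
    · rw [lap_congr (loc x h), lap_const]
    have x0 := S0.trans_le h
    rcases le_or_gt ‖x‖ (2 * ρ) with h' | h'
    · exact (key x h h').2.trans (neg_nonpos.2 (mul_nonneg (P.bd _).1 (by positivity)))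
    · rw [hf.lap_eq h', lap_eu_sq (P.sm.contDiffAt.of_le (by norm_cast)), (P.d1 _).deriv,
        P.d2 _ (by positivity)]
      have k := mul_nonneg (mul_nonneg (sq_nonneg ‖x‖) (P.mono (‖x‖ ^ 2) (by gcongr)))
        (Real.rpow_nonneg (sq_nonneg ‖x‖) (-(n / 2 : ℝ)))
      refine le_of_eq_of_le ?_ (neg_nonpos.2 (mul_nonneg zero_le_four k))
      field_simp
      ring
  · exact (le_add_of_nonneg_right (mul_nonneg (by positivity) (gn_nonneg _ _ _))).trans (str x h h')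
  · have : 0 < ‖x‖ := by linarith
    rw [P.out _ (by gcongr; linarith), (pw _ this.le).2.2]
  · refine (lip_of_fderiv (u := fun y : E n => Φ (‖y‖ ^ 2))
      (Smooth.diff (P.sm.comp contDiff_normSq)) (K := 2) fun x => (fd2 x).2).le.elim fun L hL =>
        ⟨L + Φ 0, fun x => ?_, fun x y => (hL.2 x y).trans (by gcongr; linarith [pos 0])⟩
    rw [Real.norm_of_nonneg (pos _).le]
    linarith [an 0 _ (sq_nonneg ‖x‖), hL.1]
  · rcases lt_or_ge ‖x‖ S with h | h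
    · rw [lap_congr (loc x h), lap_const, gn_congr (loc x h), gn_zero fun i => pd_const _ i x,
        mul_zero, add_zero]
    have x0 := S0.trans_le h
    exact (key2 x h h').trans (neg_nonpos.2 (mul_nonneg (P.bd _).1 (by positivity)))

end Vale.Agent.P366Y.A
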