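import Vale.Agent.P366Z.St0.Sk

/-!
# P366Y, block A: the reduction to strict data (definitions, statements)
-/

open MeasureTheory Metric Filter Topology Set
open scoped ContDiff ENNReal
open Vale.Agent.P366.Stmt Vale.Agent.P366Z Vale.Agent.P366Z.St0

noncomputable section

namespace Vale.Agent.P366Y.A

variable {n : ℕ}

/-- a smooth symmetric tensor -/
structure Sy (K : Field n) : Prop where
  sm : ∀ i j, Smooth fun x => K x i j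
  sy : ∀ x i j, K x i j = K x j i

/-- the metric after the extension to the whole space -/
structure B0 (g : Field n) (q C R m : ℝ) : Prop where
  dim : 3 ≤ n
  met : Met g
  q0 : (n : ℝ) / 2 - 1 < q
  C0 : 0 < C
  R1 : 1 ≤ R
  af : Af g q C R
  en : Tendsto (flx fun i x => yv g i x / 2) atTop (𝓝 m)

/-- the data after the extension to the whole space -/
structure Bk (g K : Field n) (F : E n → ℝ) (q C R m : ℝ) : Prop extends B0 g q C R m where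
  ext : IsExt F
  far : ∀ x, R ≤ ‖x‖ → 1 ≤ F x
  deep : ∃ x, F x < 0
  sy : Sy K
  dk : ∀ x, R ≤ ‖x‖ → √(normSq g K x) ≤ C * ‖x‖ ^ (-(q + 1)) ∧ |tr g K x| ≤ C * ‖x‖ ^ (-(q + 1))
  dec : ∀ x, 0 ≤ F x → covNorm g (mom g K) x ≤ mu g K x
  trap : ∀ x, F x = 0 → thetaPlus g K F x ≤ 0

/-- **EXK**: the extension -/
def EXK : Prop := ∀ (n : ℕ) (D : Exterior n) (m : ℝ), 3 ≤ n → D.IsAF → D.DEC → D.Trapped →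
  D.IsEnergy m → ∃ g F q C R, Bk g D.K F q C R m ∧ (∀ x, D.F x ≤ 0 → F x ≤ 0) ∧
    (∀ x, 0 ≤ D.F x → 0 ≤ F x) ∧ ∀ x, 0 ≤ D.F x → g x = D.g x

/-- the tensor `U ^ b K` -/
def ck (U : E n → ℝ) (K : Field n) : Field n := fun x i j => U x ^ bb n * K x i j

/-- **CF1**: the algebraic conformal laws and the energy density -/
def CF1 : Prop := ∀ (n : ℕ) (g K : Field n) (U : E n → ℝ), 3 ≤ n → Met g → Sy K → Smooth U →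
  (∀ x, 0 < U x) → Met (cf U g) ∧ Sy (ck U K) ∧ ∀ x,
    tr (cf U g) (ck U K) x = U x ^ (-bb n) * tr g K x ∧
    normSq (cf U g) (ck U K) x = U x ^ (-(2 * bb n)) * normSq g K x ∧
    (∀ v, gn (cf U g) v x = U x ^ (-bb n) * gn g v x) ∧
    scal (cf U g) x = U x ^ (-(2 * bb n) - 1) * cl g U x ∧
    mu (cf U g) (ck U K) x = U x ^ (-(2 * bb n)) * (mu g K x - 2 * gam n * lap g U x / U x)

/-- **CF2**: the conformal law of the momentum density -/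
def CF2 : Prop := ∀ (n : ℕ) (g K : Field n) (U : E n → ℝ), 3 ≤ n → Met g → Sy K → Smooth U →
  (∀ x, 0 < U x) → ∀ x, covNorm (cf U g) (mom (cf U g) (ck U K)) x ≤ U x ^ (-(2 * bb n)) *
    (covNorm g (mom g K) x + 2 * gam n * (√(normSq g K x) * gn g U x) / U x)

/-- **CF3**: the conformal law of the null expansion -/
def CF3 : Prop := ∀ (n : ℕ) (g K : Field n) (U F : E n → ℝ) (x : E n), 3 ≤ n → Met g → Sy K →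
  Smooth U → (∀ y, 0 < U y) → Smooth F → gn g F x ≠ 0 → thetaPlus (cf U g) (ck U K) F x =
    U x ^ (-bb n) * (thetaPlus g K F x + 2 * gam n * ip g U F x / (U x * gn g F x))

/-- **COK**: from the boundary to a collar -/
def COK : Prop := ∀ (n : ℕ) (g K : Field n) (F : E n → ℝ), Met g → Sy K → Smooth F →
  (∃ R, ∀ x, R ≤ ‖x‖ → 1 ≤ F x) → (∀ x, F x = 0 → gn g F x ≠ 0 ∧ thetaPlus g K F x < 0) →
  ∃ s > (0 : ℝ), ∃ h > (0 : ℝ), ∀ x, |F x| ≤ s → gn g F x ≠ 0 ∧ thetaPlus g K F x ≤ -h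

/-- **BAK**: the radial barrier with a drift -/
def BAK : Prop := ∀ (n : ℕ) (q C : ℝ), 3 ≤ n → 0 < q → 0 < C → ∃ c > (0 : ℝ), ∃ K > (0 : ℝ),
  ∃ R₀ > (0 : ℝ), ∀ (g : Field n) (R₁ R ρ : ℝ), Met g → Af g q C R₁ → 2 * R₁ ≤ R → R₀ ≤ R → R ≤ ρ →
    Flat g (2 * ρ) → ∃ b β, Bar g q c K R ρ b β ∧ (∀ x, ‖x‖ * ‖fderiv ℝ b x‖ ≤ K) ∧
      ∀ x : E n, ‖x‖ ≤ 2 * ρ → lap g b x + C * ‖x‖ ^ (-(q + 1)) * gn g b x ≤ 0 ∧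
        (R ≤ ‖x‖ → lap g b x + C * ‖x‖ ^ (-(q + 1)) * gn g b x ≤ -(c * R ^ q * ‖x‖ ^ (-(n + q))))

/-- **HOP**: a bump that is a subsolution outside a small ball -/
def HOP : Prop := ∀ (n : ℕ) (g : Field n) (y : E n) (k σ r : ℝ), Met g → 0 < σ → σ < r →
  ∃ z, Smooth z ∧ (∀ x, r ≤ ‖x - y‖ → z x = 0) ∧
    (∀ x, σ ≤ ‖x - y‖ → 0 ≤ lap g z x - k * gn g z x) ∧
    ∀ x, σ ≤ ‖x - y‖ → ‖x - y‖ < r → 0 < lap g z x - k * gn g z x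

/-- **THK**: a strict supersolution with a drift that decreases away from the boundary -/
def THK : Prop := ∀ (n : ℕ) (g : Field n) (F : E n → ℝ) (R' k : ℝ), 3 ≤ n → Met g → IsExt F →
  0 ≤ k → ∃ θ, Smooth θ ∧ (∀ x, 0 ≤ F x → ‖x‖ ≤ R' → lap g θ x + k * gn g θ x < 0) ∧
    ∀ x, F x = 0 → ip g θ F x < 0

/-- **FEK**: the error of the scalar curvature -/
def FEK : Prop := ∀ (n : ℕ) (g : Field n) q C R m, B0 g q C R m → ∃ K > (0 : ℝ), ∃ ρ₀ : ℝ,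
  ∀ ρ ≥ ρ₀, Smooth (fe g ρ) ∧ ∀ x, (‖x‖ ≤ ρ ∨ 2 * ρ ≤ ‖x‖ → fe g ρ x = 0) ∧
    |fe g ρ x| ≤ K * ρ ^ (-(q + 2)) ∧ (ρ ≤ ‖x‖ → |fe g ρ x| ≤ K * ‖x‖ ^ (-(q + 2)))

/-- **USK**: the correction of the scalar curvature -/
def USK : Prop := ∀ (n : ℕ) (g : Field n) q C R m, B0 g q C R m → ∀ R' : ℝ, ∀ e > (0 : ℝ),
  ∃ ρ₀ : ℝ, ∀ ρ ≥ ρ₀, ∃ u β, Smooth u ∧ (∀ x, |u x - 1| ≤ e) ∧
    (∀ x, ‖x‖ ≤ R' → ‖fderiv ℝ u x‖ ≤ e) ∧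
    (∀ x, 4 * gam n * lap (gc g ρ) u x = fe g ρ x * u x) ∧ Asy u 1 β ∧ 2 * β ≤ m + e

/-- the margin -/
def mg (q' : ℝ) (x : E n) : ℝ := (1 + ‖x‖) ^ (-(n + q'))

/-- **WK**: the strict supersolution on the exterior domain -/
def WK : Prop := ∀ (n : ℕ) (g K : Field n) F q C R m q', Bk g K F q C R m → 0 < q' → q' < q →
  ∃ L > (0 : ℝ), ∃ c > (0 : ℝ), ∃ ρ₀ : ℝ, ∀ ρ ≥ ρ₀, ∃ w β, Smooth w ∧ (∀ x, |w x| ≤ L) ∧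
    (∀ x, ‖x‖ * ‖fderiv ℝ w x‖ ≤ L) ∧
    (∀ x, 0 ≤ F x → ‖x‖ < ρ → lap g w x + √(normSq g K x) * gn g w x ≤ -(c * mg q' x)) ∧
    (∀ x, R ≤ ‖x‖ → ‖x‖ ≤ 2 * ρ →
      c * mg q' x ≤ -(4 * gam n) * lap (gc g ρ) w x + fe g ρ x * w x) ∧
    (∀ x, 2 * ρ ≤ ‖x‖ → lap (gc g ρ) w x ≤ 0) ∧ (∀ x, 4 * ρ ≤ ‖x‖ → lap (gc g ρ) w x = 0) ∧
    (∀ x, F x = 0 → ip g w F x ≤ -c) ∧ Asy w 0 β ∧ β ≤ L

/-- the function `p` of the dead core and its radius -/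
structure Pp (g K : Field n) (F : E n → ℝ) (A r p0 : ℝ) (p : E n → ℝ) : Prop where
  p00 : 0 < p0
  sm : Smooth p
  pb : ∀ x, 0 ≤ p x ∧ p x ≤ p0
  p1 : ∀ x, r / 2 ≤ ‖x‖ → p x = p0
  pz : ∀ x, F x < 1 → p x = 0
  core : ∀ x, r ≤ ‖x‖ → A * √(normSq g K x) ≤ p0

/-- **PPK**: the function `p` -/
def PPK : Prop := ∀ (n : ℕ) (g K : Field n) F q C R m q', Bk g K F q C R m → 0 < q' →
  n + q' < 2 + 2 * q → ∀ A > (0 : ℝ), ∀ c > (0 : ℝ), ∀ r₀ : ℝ, ∃ r ≥ r₀, ∃ p0 p,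
    Pp g K F A r p0 p ∧ (∀ x, ‖x‖ ≤ 2 * r → gn g p x + p x * |tr g K x| ≤ c * mg q' x) ∧
      ∀ x, r ≤ ‖x‖ → normSq g K x + tr g K x ^ 2 ≤ c * mg q' x

/-- the conformal factor -/
structure Fk (g K : Field n) (F p : E n → ℝ) (m η r ρ : ℝ) (U : E n → ℝ) (β : ℝ) : Prop where
  sm : Smooth U
  bd : ∀ x, |U x - 1| ≤ η
  gr : ∀ x, ‖x‖ ≤ 2 * r → ‖x‖ * ‖fderiv ℝ U x‖ ≤ η
  str : ∀ x, 0 ≤ F x → ‖x‖ ≤ 2 * r →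
    lap g U x + √(normSq g K x) * gn g U x + 4 * (gn g p x + p x * |tr g K x|) < 0
  pos : ∀ x, r ≤ ‖x‖ → ‖x‖ ≤ 2 * ρ →
    2 * (normSq g K x + tr g K x ^ 2) < -(4 * gam n) * lap (gc g ρ) U x + fe g ρ x * U x
  neg : ∀ x, 2 * ρ ≤ ‖x‖ → lap (gc g ρ) U x ≤ 0
  out : ∀ x, 4 * ρ ≤ ‖x‖ → lap (gc g ρ) U x = 0
  dir : ∀ x, F x = 0 → ip g U F x < 0
  asy : Asy U 1 β
  mass : 2 * β ≤ m + η

/-- **PRE**: the conformal factor exists -/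
def PRE : Prop := ∀ (n : ℕ) (g K : Field n) F q C R m, Bk g K F q C R m → ∀ η > (0 : ℝ),
  ∀ A > (0 : ℝ), ∀ r₀ : ℝ, ∃ r ≥ r₀, ∃ p0 p, Pp g K F A r p0 p ∧ ∃ ρ₀ : ℝ,
    ∀ ρ ≥ ρ₀, ∃ U β, Fk g K F p m η r ρ U β

/-- **INN**: the tensor is made very negative inside the boundary -/
def INN : Prop := ∀ (n : ℕ) (g K : Field n) (F : E n → ℝ) (s h : ℝ), 3 ≤ n → Met g → Sy K →
  Smooth F → (∃ R, ∀ x, R ≤ ‖x‖ → 1 ≤ F x) → 0 < s →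
  (∀ x, |F x| ≤ s → gn g F x ≠ 0 ∧ thetaPlus g K F x ≤ -h) →
  ∃ (K' : Field n) (k₀ : ℝ), Sy K' ∧ 1 ≤ k₀ ∧ (∀ x, 0 ≤ F x → K' =ᶠ[𝓝 x] K) ∧
    (∀ x, |F x| ≤ s → thetaPlus g K' F x ≤ -h) ∧
    (∀ x, F x ≤ -(s / 16) → ∀ ξ : Fin n → ℝ,
      ∑ i, ∑ j, K' x i j * ξ i * ξ j ≤ -k₀ * ∑ i, ∑ j, g x i j * ξ i * ξ j) ∧
    ∀ x, -(s / 8) ≤ F x → F x ≤ -(s / 16) → 16 * n * normSq g (hess g F) x ≤ k₀ ^ 2 * ip g F F x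

/-- **CVX**: the square of the norm is convex for a metric near the Euclidean one -/
def CVX : Prop := ∀ n : ℕ, 3 ≤ n → ∃ e > (0 : ℝ), ∀ (g : Field n) (U : E n → ℝ) (x : E n), Met g →
  Smooth U → (∀ y, 0 < U y) → |U x - 1| ≤ e → ‖x‖ * ‖fderiv ℝ U x‖ ≤ e →
  (∀ i j k, |g x i j - eu n x i j| ≤ e ∧ ‖x‖ * |pd k (fun y => g y i j) x| ≤ e) →
  ∀ ξ : Fin n → ℝ, 0 ≤ ∑ i, ∑ j, hess (cf U g) (fun y => ‖y‖ ^ 2) x i j * ξ i * ξ j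

/-- **VPI**: the bubble that is cut off -/
def VPI : Prop := ∀ (n : ℕ) (g : Field n) (U : E n → ℝ) (r ρ η δ : ℝ), 3 ≤ n → Met g → Flat g ρ →
  Smooth U → 1 ≤ r → r + 1 < ρ → 0 < η → 0 < δ → (∀ x, r ≤ ‖x‖ → ‖x‖ ≤ ρ → 0 < cl g U x) →
  (∀ x, ρ ≤ ‖x‖ → 0 ≤ cl g U x) → ∃ ϖ β, Smooth ϖ ∧ (∀ x, 0 ≤ ϖ x ∧ ϖ x ≤ 1 / 8) ∧
    (∀ x, ‖x‖ ≤ r → ϖ x = 0) ∧ Asy ϖ 0 β ∧ β ≤ η ∧ (∃ C, ∀ x, ‖fderiv ℝ (lap g ϖ) x‖ ≤ C) ∧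
    (∀ x, r ≤ ‖x‖ → 0 < cl g U x / 2 + cl g ϖ x) ∧
    ∀ x, ρ ≤ ‖x‖ → -(δ * ‖x‖ ^ (-(n + 2) : ℝ)) ≤ lap g ϖ x ∧ lap g ϖ x ≤ 0

end Vale.Agent.P366Y.A
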