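import Vale.Agent.P366Y.A.Defs

/-!
# P366Y, block A: locality and the pointwise inequalities
-/

open MeasureTheory Metric Filter Topology Set
open scoped ContDiff ENNReal
open Vale.Agent.P366.Stmt Vale.Agent.P366Z Vale.Agent.P366Z.St0

noncomputable section

namespace Vale.Agent.P366Y.A.Fin1

variable {n : ℕ} {g g' K K' : Field n} {F U χ : E n → ℝ} {x : E n}

theorem tr_eq (e : g x = g' x) (e' : K x = K' x) : tr g K x = tr g' K' x := by
  simp only [tr, up_of_eq e, e']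

theorem nsq_eq (e : g x = g' x) (e' : K x = K' x) : normSq g K x = normSq g' K' x := by
  simp only [normSq, up_of_eq e, e']

theorem momT_eq (e : g x = g' x) (e' : K x = K' x) : momT g K x = momT g' K' x := by
  funext i j
  simp only [momT, tr_eq e e', e, e']

theorem mom_ev (e : g =ᶠ[𝓝 x] g') (e' : K =ᶠ[𝓝 x] K') (j : Fin n) :
    mom g K j x = mom g' K' j x := by
  have h : ∀ i j, (fun y => momT g K y i j) =ᶠ[𝓝 x] fun y => momT g' K' y i j := fun i j => by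
    filter_upwards [e, e'] with y a b
    rw [momT_eq a b]
  simp only [mom, up_of_eq e.eq_of_nhds, chr_of_ev e, pd_congr (h _ _),
    momT_eq e.eq_of_nhds e'.eq_of_nhds]

theorem cov_ev (e : g =ᶠ[𝓝 x] g') (e' : K =ᶠ[𝓝 x] K') :
    covNorm g (mom g K) x = covNorm g' (mom g' K') x := by
  simp only [covNorm, up_of_eq e.eq_of_nhds, mom_ev e e']

theorem mu_ev (e : g =ᶠ[𝓝 x] g') (e' : K x = K' x) : mu g K x = mu g' K' x := by
  simp only [mu, scal_of_ev e, tr_eq e.eq_of_nhds e', nsq_eq e.eq_of_nhds e']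

theorem th_ev (e : g =ᶠ[𝓝 x] g') (e' : K x = K' x) :
    thetaPlus g K F x = thetaPlus g' K' F x := by
  simp only [thetaPlus, trS, tr, hess, nrm, covNorm, up_of_eq e.eq_of_nhds, chr_of_ev e, e']

/-- the tensor that is cut off -/
def cu (χ : E n → ℝ) (K : Field n) : Field n := fun x i j => χ x * K x i j

theorem sy_cu (hχ : Smooth χ) (hK : Sy K) : Sy (cu χ K) :=
  ⟨fun i j => ContDiff.mul hχ (hK.sm i j), fun x i j => by simp only [cu, hK.sy x i j]⟩

theorem nsq_cu : normSq g (cu χ K) x = χ x ^ 2 * normSq g K x := by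
  simp only [normSq, cu, Finset.mul_sum]
  refine Finset.sum_congr rfl fun i _ => Finset.sum_congr rfl fun j _ =>
    Finset.sum_congr rfl fun k _ => Finset.sum_congr rfl fun l _ => by ring

theorem cu_ev (h : χ =ᶠ[𝓝 x] fun _ => 1) : cu χ K =ᶠ[𝓝 x] K := by
  filter_upwards [h] with y hy
  funext i j
  simp only [cu, hy, one_mul]

theorem ex_chi {a b : ℝ} (ha : 0 < a) (hab : a < b) : ∃ χ : E n → ℝ, Smooth χ ∧
    (∀ x, 0 ≤ χ x ∧ χ x ≤ 1) ∧ (∀ x : E n, ‖x‖ < a → χ =ᶠ[𝓝 x] fun _ => 1) ∧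
    ∀ x : E n, b ≤ ‖x‖ → χ x = 0 := by
  let f : ContDiffBump (0 : E n) := ⟨a, b, ha, hab⟩
  refine ⟨f, f.contDiff, fun x => ⟨f.nonneg, f.le_one⟩, fun x hx => ?_,
    fun x hx => f.zero_of_le_dist (by simpa using hx)⟩
  filter_upwards [(isOpen_lt continuous_norm continuous_const).mem_nhds hx] with y hy
  exact f.one_of_mem_closedBall (by simpa using le_of_lt hy)

theorem pw_le {u p : ℝ} (h1 : 7 / 8 ≤ u) (h2 : u ≤ 9 / 8) (p1 : -4 ≤ p) (p2 : p ≤ 4) :
    u ^ p ≤ 2 := by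
  have u0 : 0 < u := by linarith
  have a : ∀ v p : ℝ, 0 < v → v ≤ 8 / 7 → 0 ≤ p → p ≤ 4 → v ^ p ≤ 2 := fun v p v0 v1 p0 p4 => by
    refine (Real.rpow_le_rpow v0.le v1 p0).trans
      ((Real.rpow_le_rpow_of_exponent_le (by norm_num) p4).trans ?_)
    rw [show (4 : ℝ) = (4 : ℕ) by norm_num, Real.rpow_natCast]
    norm_num
  rcases le_total 0 p with h | h
  · exact a u p u0 (by linarith) h p2
  · rw [← neg_neg p, Real.rpow_neg u0.le, ← Real.inv_rpow u0.le]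
    refine a _ _ (inv_pos.2 u0) ?_ (by linarith) (by linarith)
    rw [inv_le_comm₀ u0 (by norm_num)]
    linarith

/-- the strict dominant energy condition -/
theorem dec_alg {u b γ J μ L N a t p J' : ℝ} (h1 : 7 / 8 ≤ u) (h2 : u ≤ 9 / 8) (b0 : 0 < b)
    (b2 : b ≤ 2) (γ1 : 1 < γ) (hJ : J ≤ μ) (a0 : 0 ≤ a) (p0 : 0 ≤ p)
    (hs : L + N + 4 * (a + p * |t|) < 0) (hJ' : J' ≤ u ^ (-(2 * b)) * (J + 2 * γ * N / u)) :
    2 * J' + 4 * (u ^ (-b) * a) + 4 * p * |u ^ (-b) * t| <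
      2 * (u ^ (-(2 * b)) * (μ - 2 * γ * L / u)) := by
  have u0 : 0 < u := by linarith
  have w0 := Real.rpow_pos_of_pos u0 (-(2 * b) - 1)
  have e1 : u ^ (-(2 * b)) = u ^ (-(2 * b) - 1) * u := by
    rw [Real.rpow_sub_one u0.ne']; field_simp
  have e2 : u ^ (-b) = u ^ (-(2 * b) - 1) * u ^ (b + 1) := by
    rw [← Real.rpow_add u0]; congr 1; ring
  have k := pw_le h1 h2 (p := b + 1) (by linarith) (by linarith)
  have k0 := Real.rpow_pos_of_pos u0 (b + 1)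
  have q0 : 0 ≤ a + p * |t| := by positivity
  rw [abs_mul, abs_of_pos (Real.rpow_pos_of_pos u0 _), e2]
  rw [e1] at hJ' ⊢
  obtain ⟨w, hw⟩ : ∃ w, w = u ^ (-(2 * b) - 1) := ⟨_, rfl⟩
  obtain ⟨v, hv⟩ : ∃ v, v = u ^ (b + 1) := ⟨_, rfl⟩
  rw [← hw] at w0 hJ' ⊢
  rw [← hv] at k k0 ⊢
  have e3 : w * u * (J + 2 * γ * N / u) = w * (u * J + 2 * γ * N) := by field_simp
  have e4 : w * u * (μ - 2 * γ * L / u) = w * (u * μ - 2 * γ * L) := by field_simp
  rw [e3] at hJ'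
  rw [e4]
  have k1 : 2 * (u * J + 2 * γ * N) + 4 * v * (a + p * |t|) < 2 * (u * μ - 2 * γ * L) := by
    have := mul_le_mul_of_nonneg_left hJ u0.le
    have := mul_le_mul_of_nonneg_right k q0
    have := mul_pos (sub_pos.2 γ1) (show 0 < -(L + N) by linarith)
    nlinarith
  have k2 := mul_lt_mul_of_pos_left k1 w0
  nlinarith

end Vale.Agent.P366Y.A.Fin1
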